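import Mathlib
import Crest.Prelude.Def_AsymptoticConvexity
import Crest.Prelude.Def_DaugavetL1

-- ▼ part R125/NoAUC
section

/-!
General tools for rid 125 (asymptotic uniform convexity):
* `not_isAUC_of_steps` : a bounded family with steps bounded below close to every cofinite subspace
  excludes AUC renormings;
* `exists_mem_near_of_weaklyNull` : weakly null sequences get close to cofinite subspaces;
* `weaklyNull_of_l2upper` : upper l2 estimates give weak nullity.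
-/

set_option autoImplicit false

namespace Crest.Agent.R125

open Filter Topology Crest.AnalysisR

section unbundled

variable {X : Type*} [NormedAddCommGroup X] [NormedSpace ℝ X]



/-- Core estimate: `N`-norm growth along AUC steps. -/
theorem growth_step (N : X → ℝ) (hadd : ∀ x y, N (x + y) ≤ N x + N y)
    (hsmul : ∀ (r : ℝ) (x : X), N (r • x) = |r| * N x)
    {x y : X} {t c : ℝ} (hx : 0 < N x) (hy : 0 < N y) (ht : 0 < t) (hts : t * N x ≤ N y)
    (hc : 0 ≤ c)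
    (h : c ≤ N ((N x)⁻¹ • x + t • ((N y)⁻¹ • y)) - 1) :
    (1 + c) * N x ≤ N (x + y) := by
  set s := N y / N x with hs
  have hst : t ≤ s := by rw [hs, le_div_iff₀ hx]; exact hts
  have hs0 : 0 < s := lt_of_lt_of_le ht hst
  obtain ⟨x', hx'⟩ : ∃ x', x' = (N x)⁻¹ • x := ⟨_, rfl⟩
  obtain ⟨y', hy'⟩ : ∃ y', y' = (N y)⁻¹ • y := ⟨_, rfl⟩
  rw [← hx', ← hy'] at h
  have hNx' : N x' = 1 := by
    rw [hx', hsmul, abs_of_pos (inv_pos.2 hx), inv_mul_cancel₀ hx.ne']
  have hkey : x' + t • y' = (1 - t / s) • x' + (t / s) • (x' + s • y') := by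
    rw [smul_add, smul_smul (t / s) s y', div_mul_cancel₀ t hs0.ne', sub_smul, one_smul]
    abel
  have hts1 : t / s ≤ 1 := (div_le_one hs0).2 hst
  have hts0 : 0 < t / s := div_pos ht hs0
  have h1 : N (x' + t • y') ≤ (1 - t / s) * 1 + (t / s) * N (x' + s • y') := by
    calc N (x' + t • y') = N ((1 - t / s) • x' + (t / s) • (x' + s • y')) := by rw [← hkey]
      _ ≤ N ((1 - t / s) • x') + N ((t / s) • (x' + s • y')) := hadd _ _
      _ = (1 - t / s) * 1 + (t / s) * N (x' + s • y') := by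
        rw [hsmul, hsmul, hNx', abs_of_nonneg (by linarith), abs_of_pos hts0]
  have h2 : 1 + c ≤ N (x' + s • y') := by
    have h3 : (t / s) * (1 + c) ≤ (t / s) * N (x' + s • y') := by
      have : t / s * c ≤ c := by nlinarith
      nlinarith
    exact le_of_mul_le_mul_left h3 hts0
  have h4 : N x * N (x' + s • y') = N (x + y) := by
    have : x + y = (N x) • (x' + s • y') := by
      rw [smul_add, hx', hy', smul_smul, smul_smul, smul_smul, hs, mul_inv_cancel₀ hx.ne', one_smul]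
      have : N x * (N y / N x) * (N y)⁻¹ = 1 := by
        field_simp
      rw [this, one_smul]
    rw [this, hsmul, abs_of_pos hx]
  rw [← h4]
  nlinarith

/-- Abstract exclusion of AUC. -/
theorem false_of_steps (N : X → ℝ) (hadd : ∀ x y, N (x + y) ≤ N x + N y)
    (hsmul : ∀ (r : ℝ) (x : X), N (r • x) = |r| * N x)
    (a b : ℝ) (ha : 0 < a) (hab : ∀ x : X, a * ‖x‖ ≤ N x ∧ N x ≤ b * ‖x‖)
    (hAUC : ∀ t : ℝ, 0 < t → ∃ c : ℝ, 0 < c ∧ ∀ x : X, N x = 1 → ∃ F : Set X,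
      (∃ S : Submodule ℝ X, (S : Set X) = F ∧ IsClosed F ∧ FiniteDimensional ℝ (X ⧸ S)) ∧
        ∀ y ∈ F, N y = 1 → c ≤ N (x + t • y) - 1)
    (P : Set X) (C c₀ : ℝ) (hc₀ : 0 < c₀) (hC : ∀ x ∈ P, ‖x‖ ≤ C)
    (hne : ∃ x ∈ P, x ≠ 0)
    (hstep : ∀ x ∈ P, ∀ S : Submodule ℝ X, IsClosed (S : Set X) → FiniteDimensional ℝ (X ⧸ S) →
      ∀ ε : ℝ, 0 < ε → ∃ x' ∈ P, c₀ ≤ ‖x' - x‖ ∧ ∃ y ∈ S, ‖(x' - x) - y‖ < ε) : False := by
  obtain ⟨x₀, hx₀, hx₀ne⟩ := hne
  have hC0 : 0 < C := lt_of_lt_of_le (norm_pos_iff.2 hx₀ne) (hC _ hx₀)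
  have hb : 0 < b := by
    have h1 := hab x₀
    have h2 := norm_pos_iff.2 hx₀ne
    by_contra hb
    push Not at hb
    nlinarith [mul_pos ha h2]
  set t := a * (c₀ / 2) / (b * C) with ht
  have ht0 : 0 < t := by positivity
  obtain ⟨c, hc, hcF⟩ := hAUC t ht0
  set K := sSup (N '' P) with hK
  have hbdd : BddAbove (N '' P) := by
    refine ⟨b * C, ?_⟩
    rintro _ ⟨x, hx, rfl⟩
    exact (hab x).2.trans (mul_le_mul_of_nonneg_left (hC x hx) hb.le)
  have hNx₀ : 0 < N x₀ := lt_of_lt_of_le (mul_pos ha (norm_pos_iff.2 hx₀ne)) (hab x₀).1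
  have hK0 : 0 < K := lt_of_lt_of_le hNx₀ (le_csSup hbdd ⟨x₀, hx₀, rfl⟩)
  have hKlt : K / (1 + c / 2) < K := by
    rw [div_lt_iff₀ (by positivity)]
    nlinarith
  obtain ⟨_, ⟨x, hx, rfl⟩, hxK⟩ := exists_lt_of_lt_csSup (s := N '' P) ⟨N x₀, x₀, hx₀, rfl⟩ hKlt
  have hNx : 0 < N x := lt_trans (by positivity) hxK
  have hN1 : N ((N x)⁻¹ • x) = 1 := by
    rw [hsmul, abs_of_pos (inv_pos.2 hNx), inv_mul_cancel₀ hNx.ne']
  obtain ⟨F, ⟨S, hSF, hFcl, hfin⟩, hF⟩ := hcF _ hN1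
  have hScl : IsClosed (S : Set X) := by rw [hSF]; exact hFcl
  set ε := min (c₀ / 2) (c / 2 * N x / b) with hε
  have hε0 : 0 < ε := lt_min (by positivity) (by positivity)
  obtain ⟨x', hx', hx'c, y, hyS, hy⟩ := hstep x hx S hScl hfin ε hε0
  have hyc : c₀ / 2 ≤ ‖y‖ := by
    have h1 : ‖x' - x‖ ≤ ‖x' - x - y‖ + ‖y‖ := by
      simpa using norm_add_le (x' - x - y) y
    have h2 : ε ≤ c₀ / 2 := min_le_left _ _
    linarith
  have hNy : a * (c₀ / 2) ≤ N y := (mul_le_mul_of_nonneg_left hyc ha.le).trans (hab y).1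
  have hNy0 : 0 < N y := lt_of_lt_of_le (by positivity) hNy
  have hNxC : N x ≤ b * C := (hab x).2.trans (mul_le_mul_of_nonneg_left (hC x hx) hb.le)
  have hyF : (N y)⁻¹ • y ∈ F := by
    rw [← hSF]; exact S.smul_mem _ hyS
  have hN1y : N ((N y)⁻¹ • y) = 1 := by
    rw [hsmul, abs_of_pos (inv_pos.2 hNy0), inv_mul_cancel₀ hNy0.ne']
  have hg := growth_step N hadd hsmul hNx hNy0 ht0 (by
    have : t * N x ≤ t * (b * C) := mul_le_mul_of_nonneg_left hNxC ht0.le
    have h3 : t * (b * C) = a * (c₀ / 2) := by rw [ht]; field_simp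
    linarith) hc.le (hF _ hyF hN1y)
  have h5 : N (x + y) ≤ N x' + b * ε := by
    have e1 : x + y = x' + (-1 : ℝ) • (x' - x - y) := by
      rw [neg_one_smul]; abel
    calc N (x + y) = N (x' + (-1 : ℝ) • (x' - x - y)) := by rw [← e1]
      _ ≤ N x' + N ((-1 : ℝ) • (x' - x - y)) := hadd _ _
      _ = N x' + N (x' - x - y) := by rw [hsmul]; simp
      _ ≤ N x' + b * ‖x' - x - y‖ := by gcongr; exact (hab _).2
      _ ≤ N x' + b * ε := by gcongr
  have h6 : b * ε ≤ c / 2 * N x := by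
    have : ε ≤ c / 2 * N x / b := min_le_right _ _
    calc b * ε ≤ b * (c / 2 * N x / b) := mul_le_mul_of_nonneg_left this hb.le
      _ = c / 2 * N x := by field_simp
  have h7 : (1 + c / 2) * N x ≤ N x' := by nlinarith
  have h8 : N x' ≤ K := le_csSup hbdd ⟨x', hx', rfl⟩
  have h9 : K < (1 + c / 2) * N x := by
    rw [div_lt_iff₀ (by positivity)] at hxK
    linarith
  linarith

end unbundled


end Crest.Agent.R125
end

-- ▼ part R125/Daugavet
section

/-!
Daugavet spaces: in a real normed space with the Daugavet property, every `x` in the closed unit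
ball is, modulo any closed finite-codimensional subspace, approximable by unit ball vectors `z`
which are almost `ℓ₁`-additive to a prescribed vector `w`.
-/

set_option autoImplicit false

namespace Crest.Agent.R125.Daugavet

open Crest.AnalysisR Crest.AnalysisR.L1Subspace

variable {V : Type*} [NormedAddCommGroup V] [NormedSpace ℝ V]

/-- Adding multiples: if `‖v‖ = 1`, `‖u‖ ≤ 1` and `2 - e ≤ ‖v + u‖` then
`a + b - (max a b) e ≤ ‖a v + b u‖`. -/
lemma norm_combo_ge {u v : V} (hv : ‖v‖ ≤ 1) (hu : ‖u‖ ≤ 1) {e : ℝ}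
    (h : 2 - e ≤ ‖v + u‖) {a b : ℝ} (ha : 0 ≤ a) (hb : 0 ≤ b) :
    a + b - (max a b) * e ≤ ‖a • v + b • u‖ := by
  rcases le_total b a with hab | hab
  · have h1 : a • v + b • u = a • (v + u) - (a - b) • u := by
      rw [smul_add, sub_smul]; abel
    have h2 : ‖a • (v + u)‖ - ‖(a - b) • u‖ ≤ ‖a • v + b • u‖ := by
      rw [h1]; exact norm_sub_norm_le _ _
    rw [norm_smul, norm_smul, Real.norm_of_nonneg ha, Real.norm_of_nonneg (sub_nonneg.2 hab)] at h2
    rw [max_eq_left hab]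
    nlinarith [mul_le_mul_of_nonneg_left h ha, mul_le_mul_of_nonneg_left hu (sub_nonneg.2 hab)]
  · have h1 : a • v + b • u = b • (v + u) - (b - a) • v := by
      rw [smul_add, sub_smul]; abel
    have h2 : ‖b • (v + u)‖ - ‖(b - a) • v‖ ≤ ‖a • v + b • u‖ := by
      rw [h1]; exact norm_sub_norm_le _ _
    rw [norm_smul, norm_smul, Real.norm_of_nonneg hb, Real.norm_of_nonneg (sub_nonneg.2 hab)] at h2
    rw [max_eq_right hab]
    nlinarith [mul_le_mul_of_nonneg_left h hb, mul_le_mul_of_nonneg_left hv (sub_nonneg.2 hab)]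

/-- Slice version of the Daugavet property. -/
lemma exists_mem_slice (hV : HasDaugavetProperty V) (w : V) (φ : V →L[ℝ] ℝ) (hφ : ‖φ‖ = 1)
    {s ε : ℝ} (hs : 0 ≤ s) (hε : 0 < ε) :
    ∃ z : V, ‖z‖ ≤ 1 ∧ 1 - ε < φ z ∧ ‖w‖ + s - ε ≤ ‖w + s • z‖ := by
  classical
  -- choose a unit vector in the direction of `w` (or any unit vector)
  have hnt : ∃ v : V, ‖v‖ = 1 ∧ w = ‖w‖ • v := by
    by_cases hw : w = 0
    · have : Nontrivial V := by
        by_contra hcon
        rw [not_nontrivial_iff_subsingleton] at hcon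
        have : φ = 0 := by
          ext x
          rw [Subsingleton.elim x 0]; simp
        rw [this, norm_zero] at hφ
        exact zero_ne_one hφ
      obtain ⟨v, hv⟩ := exists_norm_eq V (zero_le_one)
      exact ⟨v, hv, by simp [hw]⟩
    · refine ⟨‖w‖⁻¹ • w, ?_, ?_⟩
      · rw [norm_smul, norm_inv, norm_norm, inv_mul_cancel₀ (norm_ne_zero_iff.2 hw)]
      · rw [smul_smul, mul_inv_cancel₀ (norm_ne_zero_iff.2 hw), one_smul]
  obtain ⟨v, hv, hwv⟩ := hnt
  set M : ℝ := max ‖w‖ s with hM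
  have hM0 : 0 ≤ M := le_max_of_le_right hs
  set e : ℝ := ε / (2 * (M + 1)) with he
  have he0 : 0 < e := by positivity
  have hDn : ‖ContinuousLinearMap.id ℝ V + φ.smulRight v‖ = 2 := by
    rw [hV φ v, ContinuousLinearMap.norm_smulRight_apply, hφ, hv]; norm_num
  -- choose a vector almost attaining the norm
  have hex : ∃ u : V, ‖u‖ ≤ 1 ∧ 2 - e < ‖u + φ u • v‖ := by
    by_contra hcon
    push Not at hcon
    have hle : ‖ContinuousLinearMap.id ℝ V + φ.smulRight v‖ ≤ max (2 - e) 0 := by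
      refine ContinuousLinearMap.opNorm_le_of_unit_norm (le_max_right _ _) ?_
      intro x hx
      have := hcon x hx.le
      exact le_max_of_le_left (by simpa using this)
    rw [hDn] at hle
    rcases le_max_iff.1 hle with h | h
    · linarith
    · linarith
  obtain ⟨u, hu, hu2⟩ := hex
  -- make `φ u` nonnegative
  wlog hpos : 0 ≤ φ u generalizing u with H
  · refine H (-u) (by simpa using hu) ?_ (by rw [map_neg]; linarith)
    rw [map_neg, neg_smul, ← neg_add, norm_neg]; exact hu2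
  have h1 : ‖u + φ u • v‖ ≤ 1 + φ u := by
    calc ‖u + φ u • v‖ ≤ ‖u‖ + ‖φ u • v‖ := norm_add_le _ _
      _ ≤ 1 + φ u := by
        rw [norm_smul, hv, mul_one, Real.norm_of_nonneg hpos]; linarith
  have h2 : 1 - e < φ u := by linarith
  have h3 : φ u ≤ 1 := by
    have := φ.le_opNorm u
    rw [hφ, one_mul, Real.norm_of_nonneg hpos] at this
    linarith
  have h4 : 2 - 2 * e ≤ ‖v + u‖ := by
    have h5 : v + u = (u + φ u • v) + (1 - φ u) • v := by
      rw [sub_smul, one_smul]; abel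
    have h6 : ‖u + φ u • v‖ - ‖(1 - φ u) • v‖ ≤ ‖v + u‖ := by
      rw [h5]
      have := norm_sub_norm_le (u + φ u • v) (-((1 - φ u) • v))
      rw [norm_neg, sub_neg_eq_add] at this
      exact this
    rw [norm_smul, hv, mul_one, Real.norm_of_nonneg (by linarith)] at h6
    linarith
  have h7 := norm_combo_ge hv.le hu h4 (norm_nonneg w) hs
  rw [← hwv] at h7
  have hMe : M * (2 * e) ≤ ε := by
    rw [he]
    have : M * (2 * (ε / (2 * (M + 1)))) = ε * (M / (M + 1)) := by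
      field_simp
    rw [this]
    have h8 : M / (M + 1) ≤ 1 := by
      rw [div_le_one (by linarith)]; linarith
    nlinarith
  have heε : e ≤ ε := by
    rw [he]
    apply div_le_self hε.le
    linarith
  exact ⟨u, hu, by linarith, by linarith⟩

/-- Adaptive choice in finitely many slices. -/
lemma exists_mem_slices (hV : HasDaugavetProperty V) {ι : Type*} (φ : ι → V →L[ℝ] ℝ)
    (hφ : ∀ i, ‖φ i‖ = 1) (δ : ι → ℝ) (hδ : ∀ i, 0 < δ i) (l : ι → ℝ) (hl : ∀ i, 0 ≤ l i)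
    (I : Finset ι) :
    ∀ (w : V) {ε : ℝ}, 0 < ε → ∃ z : ι → V, (∀ i ∈ I, ‖z i‖ ≤ 1 ∧ 1 - δ i < φ i (z i)) ∧
      ‖w‖ + ∑ i ∈ I, l i - ε ≤ ‖w + ∑ i ∈ I, l i • z i‖ := by
  classical
  induction I using Finset.induction_on with
  | empty =>
    intro w ε hε
    exact ⟨fun _ => 0, by simp, by simp; linarith⟩
  | insert j I hj ih =>
    intro w ε hε
    obtain ⟨z, hz, hz2⟩ := ih w (half_pos hε)
    obtain ⟨zj, hzj, hzj2, hzj3⟩ := exists_mem_slice hV (w + ∑ i ∈ I, l i • z i) (φ j) (hφ j)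
      (hl j) (ε := min (δ j) (ε / 2)) (lt_min (hδ j) (half_pos hε))
    refine ⟨Function.update z j zj, ?_, ?_⟩
    · intro i hi
      by_cases hij : i = j
      · subst hij
        rw [Function.update_self]
        exact ⟨hzj, lt_of_le_of_lt (by linarith [min_le_left (δ i) (ε / 2)]) hzj2⟩
      · rw [Function.update_of_ne hij]
        exact hz i (Finset.mem_of_mem_insert_of_ne hi hij)
    · rw [Finset.sum_insert hj, Finset.sum_insert hj, Function.update_self]
      have hs : ∑ i ∈ I, l i • Function.update z j zj i = ∑ i ∈ I, l i • z i := by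
        refine Finset.sum_congr rfl fun i hi => ?_
        rw [Function.update_of_ne (ne_of_mem_of_not_mem hi hj)]
      rw [hs]
      have h1 : w + (l j • zj + ∑ i ∈ I, l i • z i) = w + ∑ i ∈ I, l i • z i + l j • zj := by
        abel
      rw [h1]
      have := min_le_right (δ j) (ε / 2)
      linarith

/-- Points of `W` which are limits of slices of the unit ball of `V` under `T`. -/
def slicePoints {W : Type*} [NormedAddCommGroup W] [NormedSpace ℝ W] (T : V →L[ℝ] W) : Set W :=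
  {p : W | ∀ ε : ℝ, 0 < ε → ∃ φ : V →L[ℝ] ℝ, ‖φ‖ = 1 ∧ ∃ δ : ℝ, 0 < δ ∧
    ∀ z : V, ‖z‖ ≤ 1 → 1 - δ < φ z → ‖T z - p‖ ≤ ε}

section Euclid

variable {W : Type*} [NormedAddCommGroup W] [InnerProductSpace ℝ W] [FiniteDimensional ℝ W]

omit [FiniteDimensional ℝ W] in
/-- A farthest point of the closure of the image of the ball is a slice point. -/
lemma mem_slicePoints_of_farthest [Nontrivial V] (T : V →L[ℝ] W) (c p : W)
    (hp : p ∈ closure (T '' Metric.closedBall 0 1))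
    (hmax : ∀ z : V, ‖z‖ ≤ 1 → ‖T z - c‖ ≤ ‖p - c‖) : p ∈ slicePoints T := by
  intro ε hε
  set φ₀ : V →L[ℝ] ℝ := (innerSL ℝ (p - c)).comp T with hφ₀
  have hφ₀a : ∀ z, φ₀ z = inner ℝ (p - c) (T z) := fun z => rfl
  -- main estimate
  have hsup : inner ℝ (p - c) p ≤ ‖φ₀‖ := by
    have hcl : closure (T '' Metric.closedBall 0 1) ⊆ {q : W | inner ℝ (p - c) q ≤ ‖φ₀‖} := by
      apply closure_minimal
      · rintro _ ⟨z, hz, rfl⟩
        rw [mem_closedBall_zero_iff] at hz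
        show inner ℝ (p - c) (T z) ≤ ‖φ₀‖
        rw [← hφ₀a]
        calc φ₀ z ≤ ‖φ₀ z‖ := Real.le_norm_self _
          _ ≤ ‖φ₀‖ * ‖z‖ := φ₀.le_opNorm z
          _ ≤ ‖φ₀‖ * 1 := by gcongr
          _ = ‖φ₀‖ := mul_one _
      · exact isClosed_le (by fun_prop) continuous_const
    exact hcl hp
  have hest : ∀ z : V, ‖z‖ ≤ 1 → ‖T z - p‖ ^ 2 ≤ 2 * (‖φ₀‖ - φ₀ z) := by
    intro z hz
    have h1 : T z - p = (T z - c) - (p - c) := by abel
    have h2 : ‖T z - p‖ ^ 2 = ‖T z - c‖ ^ 2 - 2 * inner ℝ (T z - c) (p - c) + ‖p - c‖ ^ 2 := by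
      rw [h1]; exact norm_sub_sq_real _ _
    have h3 : ‖T z - c‖ ^ 2 ≤ ‖p - c‖ ^ 2 := by
      have := hmax z hz
      gcongr
    have h4 : inner ℝ (T z - c) (p - c) = φ₀ z - inner ℝ (p - c) c := by
      rw [hφ₀a, real_inner_comm, inner_sub_right]
    have h5 : ‖p - c‖ ^ 2 = inner ℝ (p - c) p - inner ℝ (p - c) c := by
      rw [← inner_sub_right, real_inner_self_eq_norm_sq]
    nlinarith
  by_cases h0 : ‖φ₀‖ = 0
  · obtain ⟨x, hx⟩ := exists_ne (0 : V)
    obtain ⟨g, hg, -⟩ := exists_dual_vector ℝ x (norm_ne_zero_iff.2 hx)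
    refine ⟨g, hg, 1, one_pos, fun z hz _ => ?_⟩
    have h1 := hest z hz
    have h2 : φ₀ z = 0 := by
      have : φ₀ = 0 := norm_eq_zero.1 h0
      rw [this]; rfl
    rw [h0, h2] at h1
    have h3 : ‖T z - p‖ ^ 2 ≤ 0 := by linarith
    have h4 : ‖T z - p‖ = 0 := by nlinarith [norm_nonneg (T z - p), sq_nonneg ‖T z - p‖]
    linarith
  · have hpos : 0 < ‖φ₀‖ := lt_of_le_of_ne (norm_nonneg _) (Ne.symm h0)
    refine ⟨‖φ₀‖⁻¹ • φ₀, ?_, ε ^ 2 / (2 * ‖φ₀‖), by positivity, fun z hz hz2 => ?_⟩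
    · rw [norm_smul, norm_inv, norm_norm, inv_mul_cancel₀ h0]
    · have h1 := hest z hz
      have h2 : (‖φ₀‖⁻¹ • φ₀) z = φ₀ z / ‖φ₀‖ := by
        simp [div_eq_inv_mul]
      rw [h2, lt_div_iff₀ hpos] at hz2
      have h3 : (1 - ε ^ 2 / (2 * ‖φ₀‖)) * ‖φ₀‖ = ‖φ₀‖ - ε ^ 2 / 2 := by
        field_simp
      rw [h3] at hz2
      have h4 : ‖T z - p‖ ^ 2 ≤ ε ^ 2 := by linarith
      exact abs_le_of_sq_le_sq' h4 hε.le |>.2

/-- The image of any unit-ball vector is in the closed convex hull of the slice points. -/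
lemma mem_closure_convexHull_slicePoints [Nontrivial V] (T : V →L[ℝ] W) (x : V) (hx : ‖x‖ ≤ 1) :
    T x ∈ closure (convexHull ℝ (slicePoints T)) := by
  by_contra hcon
  obtain ⟨f, u, hf, hfu⟩ := geometric_hahn_banach_closed_point
    ((convex_convexHull ℝ (slicePoints T)).closure) isClosed_closure hcon
  set a : W := (InnerProductSpace.toDual ℝ W).symm f with ha
  have hfa : ∀ q, f q = inner ℝ a q := fun q => by
    rw [ha, InnerProductSpace.toDual_symm_apply]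
  have hgap : 0 < f (T x) - u := by linarith
  set lam : ℝ := (2 * (‖T‖ + 1) ^ 2 + 1) / (f (T x) - u) with hlam
  have hlam0 : 0 < lam := by positivity
  set c : W := T x - lam • a with hc
  -- compactness
  have hbdd : Bornology.IsBounded (T '' Metric.closedBall (0 : V) 1) :=
    T.lipschitz.isBounded_image Metric.isBounded_closedBall
  have hK : IsCompact (closure (T '' Metric.closedBall (0 : V) 1)) := hbdd.isCompact_closure
  have hne : (closure (T '' Metric.closedBall (0 : V) 1)).Nonempty :=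
    ⟨T x, subset_closure ⟨x, by simpa using hx, rfl⟩⟩
  obtain ⟨p, hp, hpmax⟩ := hK.exists_isMaxOn hne
    (f := fun q => ‖q - c‖) (by fun_prop)
  have hpmax' : ∀ z : V, ‖z‖ ≤ 1 → ‖T z - c‖ ≤ ‖p - c‖ := fun z hz =>
    hpmax (subset_closure ⟨z, by simpa using hz, rfl⟩)
  have hpS := mem_slicePoints_of_farthest T c p hp hpmax'
  have hfp : f p < u := hf p (subset_closure (subset_convexHull ℝ _ hpS))
  have hdist := hpmax' x hx
  -- bound on `‖p - T x‖`
  have hTb : ∀ q ∈ closure (T '' Metric.closedBall (0 : V) 1), ‖q‖ ≤ ‖T‖ := by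
    intro q hq
    have hcl : closure (T '' Metric.closedBall 0 1) ⊆ {q : W | ‖q‖ ≤ ‖T‖} := by
      apply closure_minimal
      · rintro _ ⟨z, hz, rfl⟩
        rw [mem_closedBall_zero_iff] at hz
        calc ‖T z‖ ≤ ‖T‖ * ‖z‖ := T.le_opNorm z
          _ ≤ ‖T‖ * 1 := by gcongr
          _ = ‖T‖ := mul_one _
      · exact isClosed_le continuous_norm continuous_const
    exact hcl hq
  have h1 : ‖p - T x‖ ≤ 2 * ‖T‖ := by
    have h2 := hTb p hp
    have h3 := hTb (T x) (subset_closure ⟨x, by simpa using hx, rfl⟩)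
    calc ‖p - T x‖ ≤ ‖p‖ + ‖T x‖ := norm_sub_le _ _
      _ ≤ 2 * ‖T‖ := by linarith
  have h4 : ‖T x - c‖ ^ 2 = lam ^ 2 * ‖a‖ ^ 2 := by
    rw [hc, sub_sub_cancel, norm_smul, Real.norm_of_nonneg hlam0.le, mul_pow]
  have h5 : ‖p - c‖ ^ 2 = ‖p - T x‖ ^ 2 + 2 * (lam * (f p - f (T x))) + lam ^ 2 * ‖a‖ ^ 2 := by
    have : p - c = (p - T x) + lam • a := by rw [hc]; abel
    rw [this, norm_add_sq_real, inner_smul_right, real_inner_comm, inner_sub_right, ← hfa, ← hfa,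
      norm_smul, Real.norm_of_nonneg hlam0.le, mul_pow]
  have h6 : ‖T x - c‖ ^ 2 ≤ ‖p - c‖ ^ 2 := by gcongr
  have h7 : ‖p - T x‖ ^ 2 ≤ 4 * ‖T‖ ^ 2 := by
    have : ‖p - T x‖ ^ 2 ≤ (2 * ‖T‖) ^ 2 := by gcongr
    linarith [this, mul_pow 2 ‖T‖ 2]
  have h8 : lam * (f (T x) - u) = 2 * (‖T‖ + 1) ^ 2 + 1 := by
    rw [hlam, div_mul_cancel₀ _ hgap.ne']
  have h9 : lam * (f p - f (T x)) ≤ - (lam * (f (T x) - u)) := by
    have : lam * (f p) ≤ lam * u := by gcongr
    linarith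
  nlinarith [norm_nonneg T]

end Euclid

/-- Main statement: in a Daugavet space `V`, for `x` in the unit ball, any `w`, any closed subspace
`S` of finite codimension, there is `z` in the unit ball with `‖w + z‖ ≥ ‖w‖ + 1 - ε` and `z - x`
within `ε` of `S`. -/
theorem exists_near (hV : HasDaugavetProperty V) [Nontrivial V] (x w : V) (hx : ‖x‖ ≤ 1)
    (S : Submodule ℝ V) (hS : IsClosed (S : Set V)) (hfin : FiniteDimensional ℝ (V ⧸ S))
    {ε : ℝ} (hε : 0 < ε) :
    ∃ z : V, ‖z‖ ≤ 1 ∧ ‖w‖ + 1 - ε ≤ ‖w + z‖ ∧ ∃ y ∈ S, ‖z - x - y‖ ≤ ε := by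
  classical
  have := hS
  let e : (V ⧸ S) ≃L[ℝ] EuclideanSpace ℝ (Fin (Module.finrank ℝ (V ⧸ S))) := toEuclidean
  let T : V →L[ℝ] EuclideanSpace ℝ (Fin (Module.finrank ℝ (V ⧸ S))) :=
    (e : (V ⧸ S) →L[ℝ] _).comp S.mkQL
  have hT : ∀ v, T v = e (S.mkQ v) := fun v => rfl
  set C : ℝ := ‖(e.symm : EuclideanSpace ℝ (Fin (Module.finrank ℝ (V ⧸ S))) →L[ℝ] (V ⧸ S))‖ with hC
  have hC0 : 0 ≤ C := ContinuousLinearMap.opNorm_nonneg _
  set r : ℝ := ε / (4 * (C + 1)) with hr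
  have hr0 : 0 < r := by positivity
  have hmem := mem_closure_convexHull_slicePoints T x hx
  rw [Metric.mem_closure_iff] at hmem
  obtain ⟨q, hq, hqd⟩ := hmem r hr0
  rw [mem_convexHull_iff_exists_fintype] at hq
  obtain ⟨ι, hι, l, d, hl0, hl1, hd, hlq⟩ := hq
  choose φ hφ δ hδ hsl using fun i => hd i r hr0
  obtain ⟨z, hz, hz2⟩ := exists_mem_slices hV φ hφ δ hδ l hl0 Finset.univ w hε
  refine ⟨∑ i, l i • z i, ?_, ?_, ?_⟩
  · calc ‖∑ i, l i • z i‖ ≤ ∑ i, ‖l i • z i‖ := norm_sum_le _ _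
      _ ≤ ∑ i, l i := by
        refine Finset.sum_le_sum fun i _ => ?_
        rw [norm_smul, Real.norm_of_nonneg (hl0 i)]
        have := (hz i (Finset.mem_univ i)).1
        nlinarith [hl0 i]
      _ = 1 := hl1
  · rw [hl1] at hz2; exact hz2
  · -- estimate in the quotient
    have h1 : ‖T (∑ i, l i • z i) - q‖ ≤ r := by
      have h2 : T (∑ i, l i • z i) - q = ∑ i, l i • (T (z i) - d i) := by
        rw [map_sum, ← hlq, ← Finset.sum_sub_distrib]
        refine Finset.sum_congr rfl fun i _ => ?_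
        rw [map_smul, smul_sub]
      rw [h2]
      calc ‖∑ i, l i • (T (z i) - d i)‖ ≤ ∑ i, ‖l i • (T (z i) - d i)‖ := norm_sum_le _ _
        _ ≤ ∑ i, l i * r := by
          refine Finset.sum_le_sum fun i _ => ?_
          rw [norm_smul, Real.norm_of_nonneg (hl0 i)]
          have h3 := hz i (Finset.mem_univ i)
          have := hsl i (z i) h3.1 h3.2
          exact mul_le_mul_of_nonneg_left this (hl0 i)
        _ = r := by rw [← Finset.sum_mul, hl1, one_mul]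
    have h4 : ‖T (∑ i, l i • z i - x)‖ ≤ 2 * r := by
      have h5 : T (∑ i, l i • z i - x) = (T (∑ i, l i • z i) - q) - (T x - q) := by
        rw [map_sub]; abel
      rw [h5]
      have h6 : ‖T x - q‖ ≤ r := by rw [← dist_eq_norm]; exact hqd.le
      calc _ ≤ ‖T (∑ i, l i • z i) - q‖ + ‖T x - q‖ := norm_sub_le _ _
        _ ≤ 2 * r := by linarith
    have h7 : ‖(Submodule.Quotient.mk (∑ i, l i • z i - x) : V ⧸ S)‖ ≤ C * (2 * r) := by
      have h8 : (Submodule.Quotient.mk (∑ i, l i • z i - x) : V ⧸ S)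
          = e.symm (T (∑ i, l i • z i - x)) := by
        rw [hT, ContinuousLinearEquiv.symm_apply_apply]; rfl
      rw [h8]
      calc _ ≤ C * ‖T (∑ i, l i • z i - x)‖ :=
            (e.symm : EuclideanSpace ℝ (Fin (Module.finrank ℝ (V ⧸ S))) →L[ℝ] (V ⧸ S)).le_opNorm _
        _ ≤ C * (2 * r) := by gcongr
    have h9 : C * (2 * r) < ε / 2 + 0 := by
      rw [hr]
      have : C * (2 * (ε / (4 * (C + 1)))) = (ε / 2) * (C / (C + 1)) := by
        field_simp; ring
      rw [this, add_zero]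
      have h10 : C / (C + 1) < 1 := by
        rw [div_lt_one (by linarith)]; linarith
      nlinarith
    obtain ⟨m, hm, hmn⟩ := Submodule.Quotient.norm_mk_lt
      (Submodule.Quotient.mk (∑ i, l i • z i - x) : V ⧸ S) (half_pos hε)
    refine ⟨∑ i, l i • z i - x - m, ?_, ?_⟩
    · rw [Submodule.Quotient.eq] at hm
      have := S.neg_mem hm
      simpa using this
    · rw [sub_sub_cancel]
      linarith

end Crest.Agent.R125.Daugavet
end

-- ▼ part R125/MeasureCompact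

/-!
Subspaces of `L¹(P)` whose unit ball is totally bounded in measure: lower bound `t/2` for the
averaged asymptotic midpoint modulus.
-/

set_option autoImplicit false

namespace Crest.Agent.R125.MeasureCompact

open Crest.AnalysisR Crest.AnalysisR.L1Subspace MeasureTheory Filter Topology

variable {Ω : Type} [MeasurableSpace Ω]

/-- Closeness in `measureDist` controls the measure of the set where the difference is large. -/
lemma measure_lt_of_measureDist_lt (P : Measure Ω) [IsProbabilityMeasure P] (f g : Lp ℝ 1 P)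
    {ε : ℝ} (hε : 0 < ε) (h : measureDist P f g < ε) :
    P {z | ε < abs ((f : Ω → ℝ) z - (g : Ω → ℝ) z)} ≤ ENNReal.ofReal ε := by
  unfold measureDist at h
  have hne : {a : ℝ | 0 < a ∧ P {z | a < abs ((f : Ω → ℝ) z - (g : Ω → ℝ) z)} <
      ENNReal.ofReal a}.Nonempty := by
    refine ⟨2, two_pos, lt_of_le_of_lt prob_le_one ?_⟩
    rw [← ENNReal.ofReal_one]
    exact (ENNReal.ofReal_lt_ofReal_iff two_pos).2 one_lt_two
  obtain ⟨a, ⟨ha0, ha⟩, haε⟩ := exists_lt_of_csInf_lt hne h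
  calc P {z | ε < abs ((f : Ω → ℝ) z - (g : Ω → ℝ) z)}
      ≤ P {z | a < abs ((f : Ω → ℝ) z - (g : Ω → ℝ) z)} := by
        apply measure_mono
        intro z hz
        exact lt_trans haε hz
    _ ≤ ENNReal.ofReal a := ha.le
    _ ≤ ENNReal.ofReal ε := ENNReal.ofReal_le_ofReal haε.le

/-- Subsequence extraction, first step: simultaneous closeness to net points. -/
lemma exists_subseq_near (P : Measure Ω) (E : Submodule ℝ (Lp ℝ 1 P))
    (htb : UnitBallTotallyBoundedInMeasure P E) (f : ℕ → Lp ℝ 1 P) (hfE : ∀ n, f n ∈ E)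
    (hf : ∀ n, ‖f n‖ ≤ 1) :
    ∃ (φ : ℕ → ℕ) (g : ℕ → Lp ℝ 1 P), StrictMono φ ∧
      ∀ k, ∀ j ≤ k, measureDist P (f (φ k)) (g j) < (1 / 2 : ℝ) ^ j := by
  classical
  have hnet : ∀ k : ℕ, ∃ g : Lp ℝ 1 P,
      ∀ᶠ n in (hyperfilter ℕ : Filter ℕ), measureDist P (f n) g < (1 / 2 : ℝ) ^ k := by
    intro k
    obtain ⟨s, -, hs⟩ := htb ((1 / 2 : ℝ) ^ k) (by positivity)
    have h1 : ∀ᶠ n in (hyperfilter ℕ : Filter ℕ), ∃ g ∈ (s : Set (Lp ℝ 1 P)),
        measureDist P (f n) g < (1 / 2 : ℝ) ^ k :=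
      Eventually.of_forall fun n => by simpa using hs (f n) (hfE n) (hf n)
    obtain ⟨g, -, hg⟩ := (Ultrafilter.eventually_exists_mem_iff s.finite_toSet).1 h1
    exact ⟨g, hg⟩
  choose g hg using hnet
  obtain ⟨φ, hφ, hφ2⟩ := extraction_forall_of_frequently
    (P := fun k n => ∀ j ≤ k, measureDist P (f n) (g j) < (1 / 2 : ℝ) ^ j) (by
      intro k
      have h1 : ∀ᶠ n in (hyperfilter ℕ : Filter ℕ), ∀ j ∈ Finset.range (k + 1),
          measureDist P (f n) (g j) < (1 / 2 : ℝ) ^ j :=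
        (Finset.eventually_all _).2 fun j _ => hg j
      have h2 : ∃ᶠ n in (hyperfilter ℕ : Filter ℕ), ∀ j ∈ Finset.range (k + 1),
          measureDist P (f n) (g j) < (1 / 2 : ℝ) ^ j := h1.frequently
      have h3 := h2.filter_mono Nat.hyperfilter_le_atTop
      refine h3.mono fun n hn j hj => hn j (Finset.mem_range.2 (Nat.lt_succ_of_le hj)))
  exact ⟨φ, g, hφ, hφ2⟩

/-- Subsequence extraction: an a.e. convergent subsequence with limit in the `L¹` ball. -/
lemma exists_subseq_ae (P : Measure Ω) [IsProbabilityMeasure P] (E : Submodule ℝ (Lp ℝ 1 P))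
    (htb : UnitBallTotallyBoundedInMeasure P E) (f : ℕ → Lp ℝ 1 P) (hfE : ∀ n, f n ∈ E)
    (hf : ∀ n, ‖f n‖ ≤ 1) :
    ∃ (φ : ℕ → ℕ) (G : Lp ℝ 1 P), StrictMono φ ∧
      ∀ᵐ z ∂P, Tendsto (fun k => (f (φ k) : Ω → ℝ) z) atTop (𝓝 ((G : Ω → ℝ) z)) := by
  obtain ⟨φ, g, hφ, hg⟩ := exists_subseq_near P E htb f hfE hf
  set B : ℕ → Set Ω := fun k => {z | 2 * (1 / 2 : ℝ) ^ k <
    abs ((f (φ k) : Ω → ℝ) z - (f (φ (k + 1)) : Ω → ℝ) z)} with hB
  have hBm : ∀ k, P (B k) ≤ ENNReal.ofReal (2 * (1 / 2 : ℝ) ^ k) := by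
    intro k
    have h1 := measure_lt_of_measureDist_lt P (f (φ k)) (g k) (by positivity) (hg k k le_rfl)
    have h2 := measure_lt_of_measureDist_lt P (f (φ (k + 1))) (g k) (by positivity)
      (hg (k + 1) k (Nat.le_succ k))
    have hsub : B k ⊆ {z | (1 / 2 : ℝ) ^ k < abs ((f (φ k) : Ω → ℝ) z - (g k : Ω → ℝ) z)} ∪
        {z | (1 / 2 : ℝ) ^ k < abs ((f (φ (k + 1)) : Ω → ℝ) z - (g k : Ω → ℝ) z)} := by
      intro z hz
      by_contra hcon
      simp only [Set.mem_union, Set.mem_ofPred_eq, not_or, not_lt] at hcon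
      have hz' : 2 * (1 / 2 : ℝ) ^ k <
        abs ((f (φ k) : Ω → ℝ) z - (f (φ (k + 1)) : Ω → ℝ) z) := hz
      have h3 : abs ((f (φ k) : Ω → ℝ) z - (f (φ (k + 1)) : Ω → ℝ) z) ≤
          abs ((f (φ k) : Ω → ℝ) z - (g k : Ω → ℝ) z) +
          abs ((f (φ (k + 1)) : Ω → ℝ) z - (g k : Ω → ℝ) z) := by
        have h4 := abs_sub ((f (φ k) : Ω → ℝ) z - (g k : Ω → ℝ) z)
          ((f (φ (k + 1)) : Ω → ℝ) z - (g k : Ω → ℝ) z)
        have h5 : ((f (φ k) : Ω → ℝ) z - (g k : Ω → ℝ) z) -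
          ((f (φ (k + 1)) : Ω → ℝ) z - (g k : Ω → ℝ) z) =
          (f (φ k) : Ω → ℝ) z - (f (φ (k + 1)) : Ω → ℝ) z := by ring
        rwa [h5] at h4
      linarith [hcon.1, hcon.2]
    calc P (B k) ≤ _ := measure_mono hsub
      _ ≤ _ := measure_union_le _ _
      _ ≤ ENNReal.ofReal ((1 / 2 : ℝ) ^ k) + ENNReal.ofReal ((1 / 2 : ℝ) ^ k) :=
          add_le_add h1 h2
      _ = ENNReal.ofReal (2 * (1 / 2 : ℝ) ^ k) := by
          rw [← ENNReal.ofReal_add (by positivity) (by positivity)]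
          congr 1; ring
  have hsum : (∑' k, P (B k)) ≠ ⊤ := by
    have h1 : (∑' k, P (B k)) ≤ ∑' k, ENNReal.ofReal (2 * (1 / 2 : ℝ) ^ k) :=
      ENNReal.tsum_le_tsum hBm
    have h2 : Summable (fun k : ℕ => 2 * (1 / 2 : ℝ) ^ k) :=
      (summable_geometric_of_lt_one (by norm_num) (by norm_num)).mul_left 2
    rw [← ENNReal.ofReal_tsum_of_nonneg (fun k => by positivity) h2] at h1
    exact ne_top_of_le_ne_top ENNReal.ofReal_ne_top h1
  have hae := ae_eventually_notMem hsum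
  have hlim : ∀ᵐ z ∂P, ∃ l : ℝ, Tendsto (fun k => (f (φ k) : Ω → ℝ) z) atTop (𝓝 l) := by
    filter_upwards [hae] with z hz
    rw [eventually_atTop] at hz
    obtain ⟨K, hK⟩ := hz
    have hcau : CauchySeq (fun k => (f (φ (k + K)) : Ω → ℝ) z) := by
      refine cauchySeq_of_le_geometric (1 / 2) (2 * (1 / 2 : ℝ) ^ K) (by norm_num) fun n => ?_
      have := hK (n + K) (Nat.le_add_left _ _)
      simp only [hB, Set.mem_ofPred_eq, not_lt] at this
      rw [Real.dist_eq]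
      have h2 : n + 1 + K = n + K + 1 := by ring
      rw [h2]
      refine this.trans (le_of_eq ?_)
      rw [pow_add]; ring
    obtain ⟨l, hl⟩ := cauchySeq_tendsto_of_complete hcau
    exact ⟨l, (tendsto_add_atTop_iff_nat K).1 hl⟩
  obtain ⟨G, hGm, hG⟩ := exists_stronglyMeasurable_limit_of_tendsto_ae
    (fun n => (Lp.stronglyMeasurable (f (φ n))).aestronglyMeasurable) hlim
  have hbd : eLpNorm G 1 P ≤ 1 := by
    refine Lp.eLpNorm_le_of_ae_tendsto (u := atTop) (f := fun n => (f (φ n) : Ω → ℝ)) ?_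
      (fun n => (Lp.stronglyMeasurable (f (φ n))).aestronglyMeasurable) hG
    refine Eventually.of_forall fun n => ?_
    have h1 := hf (φ n)
    rw [Lp.norm_def] at h1
    have h2 : eLpNorm (f (φ n)) 1 P ≠ ⊤ := Lp.eLpNorm_ne_top _
    rw [← ENNReal.ofReal_toReal h2]
    exact (ENNReal.ofReal_le_ofReal h1).trans_eq ENNReal.ofReal_one
  have hGLp : MemLp G 1 P := ⟨hGm.aestronglyMeasurable, lt_of_le_of_lt hbd ENNReal.one_lt_top⟩
  refine ⟨φ, hGLp.toLp G, hφ, ?_⟩
  filter_upwards [hG, hGLp.coeFn_toLp] with z hz hz2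
  rw [hz2]; exact hz

/-- Brezis–Lieb for `p = 1`. -/
lemma brezisLieb (P : Measure Ω) (w : ℕ → Lp ℝ 1 P)
    (hw : ∀ᵐ z ∂P, Tendsto (fun k => (w k : Ω → ℝ) z) atTop (𝓝 0)) (v : Lp ℝ 1 P) :
    Tendsto (fun k => ‖v + w k‖ - ‖w k‖) atTop (𝓝 ‖v‖) := by
  have h1 : ∀ k, ‖v + w k‖ - ‖w k‖ =
      ∫ z, (‖(v : Ω → ℝ) z + (w k : Ω → ℝ) z‖ - ‖(w k : Ω → ℝ) z‖) ∂P := by
    intro k
    rw [L1.norm_eq_integral_norm, L1.norm_eq_integral_norm, ← integral_sub]
    · apply integral_congr_ae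
      filter_upwards [Lp.coeFn_add v (w k)] with z hz
      rw [hz]; rfl
    · exact (L1.integrable_coeFn _).norm
    · exact (L1.integrable_coeFn _).norm
  simp_rw [h1]
  rw [L1.norm_eq_integral_norm]
  refine tendsto_integral_of_dominated_convergence (fun z => ‖(v : Ω → ℝ) z‖) ?_ ?_ ?_ ?_
  · intro k
    refine AEStronglyMeasurable.sub ?_ ?_
    · exact ((Lp.stronglyMeasurable v).add (Lp.stronglyMeasurable (w k))).norm.aestronglyMeasurable
    · exact (Lp.stronglyMeasurable (w k)).norm.aestronglyMeasurable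
  · exact (L1.integrable_coeFn v).norm
  · intro k
    refine Eventually.of_forall fun z => ?_
    rw [Real.norm_eq_abs, abs_le]
    have h2 := norm_add_le ((v : Ω → ℝ) z) ((w k : Ω → ℝ) z)
    have h3 := norm_sub_le ((v : Ω → ℝ) z + (w k : Ω → ℝ) z) ((v : Ω → ℝ) z)
    rw [add_sub_cancel_left] at h3
    constructor <;> linarith
  · filter_upwards [hw] with z hz
    have h2 : Tendsto (fun k => ‖(v : Ω → ℝ) z + (w k : Ω → ℝ) z‖ - ‖(w k : Ω → ℝ) z‖) atTop
        (𝓝 (‖(v : Ω → ℝ) z + 0‖ - ‖(0 : ℝ)‖)) :=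
      ((tendsto_const_nhds.add hz).norm).sub hz.norm
    simpa using h2

/-- Lower bound for the averaged modulus. -/
theorem midpoint_lower (P : Measure Ω) [IsProbabilityMeasure P] (E : Submodule ℝ (Lp ℝ 1 P))
    (htb : UnitBallTotallyBoundedInMeasure P E) (x : E) (hx : ‖x‖ = 1) {t η : ℝ} (ht : 0 < t)
    (hη : 0 < η) :
    ∃ S : Submodule ℝ E, IsClosed (S : Set E) ∧ FiniteDimensional ℝ (E ⧸ S) ∧
      ∀ y ∈ S, ‖y‖ = 1 → 1 + t / 2 - η ≤ (‖x + t • y‖ + ‖x - t • y‖) / 2 := by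
  classical
  by_contra hcon
  push Not at hcon
  -- build the sequence
  obtain ⟨f, hf1, hf2⟩ := exists_seq_of_forall_finset_exists
    (P := fun y : E => ‖y‖ = 1 ∧ (‖x + t • y‖ + ‖x - t • y‖) / 2 < 1 + t / 2 - η)
    (r := fun y y' : E => 1 ≤ ‖y - y'‖) (by
      intro s hs
      -- norming functionals
      have hg : ∀ y : E, ∃ g : E →L[ℝ] ℝ, ‖g‖ ≤ 1 ∧ g y = ‖y‖ := by
        intro y
        obtain ⟨g, hg1, hg2⟩ := exists_dual_vector'' ℝ y
        exact ⟨g, hg1, by simpa using hg2⟩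
      choose g hg1 hg2 using hg
      let T : E →L[ℝ] (s → ℝ) := ContinuousLinearMap.pi fun y => g y
      set S : Submodule ℝ E := LinearMap.ker T.toLinearMap with hS
      have hScl : IsClosed (S : Set E) := T.isClosed_ker
      have hSfin : FiniteDimensional ℝ (E ⧸ S) :=
        FiniteDimensional.of_injective (S.liftQ T.toLinearMap le_rfl) (by
          rw [← LinearMap.ker_eq_bot]
          exact Submodule.ker_liftQ_eq_bot _ _ _ le_rfl)
      obtain ⟨y, hyS, hy1, hy2⟩ := hcon S hScl hSfin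
      refine ⟨y, ⟨hy1, hy2⟩, fun y' hy' => ?_⟩
      have h1 : g y' y = 0 := by
        have : T y = 0 := hyS
        exact congrFun this ⟨y', hy'⟩
      have h2 : g y' (y' - y) = 1 := by
        rw [map_sub, h1, hg2, (hs y' hy').1, sub_zero]
      calc (1 : ℝ) = g y' (y' - y) := h2.symm
        _ ≤ ‖g y' (y' - y)‖ := Real.le_norm_self _
        _ ≤ ‖g y'‖ * ‖y' - y‖ := (g y').le_opNorm _
        _ ≤ 1 * ‖y' - y‖ := by gcongr; exact hg1 y'
        _ = ‖y' - y‖ := one_mul _)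
  obtain ⟨φ, G, hφ, hG⟩ := exists_subseq_ae P E htb (fun n => (f n : Lp ℝ 1 P))
    (fun n => (f n).2) (fun n => (hf1 n).1.le)
  set u : ℕ → Lp ℝ 1 P := fun k => (f (φ k) : Lp ℝ 1 P) with hu
  have hu1 : ∀ k, ‖u k‖ = 1 := fun k => (hf1 (φ k)).1
  have hu2 : ∀ m k, m < k → 1 ≤ ‖u m - u k‖ := fun m k hmk => hf2 _ _ (hφ hmk)
  have hu3 : ∀ k, (‖(x : Lp ℝ 1 P) + t • u k‖ + ‖(x : Lp ℝ 1 P) - t • u k‖) / 2 <
      1 + t / 2 - η := fun k => (hf1 (φ k)).2
  set w : ℕ → Lp ℝ 1 P := fun k => u k - G with hw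
  have hw0 : ∀ᵐ z ∂P, Tendsto (fun k => (w k : Ω → ℝ) z) atTop (𝓝 0) := by
    have h1 : ∀ᵐ z ∂P, ∀ k, (w k : Ω → ℝ) z = (u k : Ω → ℝ) z - (G : Ω → ℝ) z := by
      rw [ae_all_iff]
      intro k
      filter_upwards [Lp.coeFn_sub (u k) G] with z hz
      rw [hw]; simpa using hz
    filter_upwards [h1, hG] with z hz hz2
    simp_rw [hz]
    have := hz2.sub_const ((G : Ω → ℝ) z)
    simpa using this
  have hwsc : ∀ c : ℝ, ∀ᵐ z ∂P, Tendsto (fun k => ((c • w k : Lp ℝ 1 P) : Ω → ℝ) z) atTop (𝓝 0) := by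
    intro c
    have h1 : ∀ᵐ z ∂P, ∀ k, ((c • w k : Lp ℝ 1 P) : Ω → ℝ) z = c * (w k : Ω → ℝ) z := by
      rw [ae_all_iff]
      intro k
      filter_upwards [Lp.coeFn_smul c (w k)] with z hz
      rw [hz]; rfl
    filter_upwards [h1, hw0] with z hz hz2
    simp_rw [hz]
    have := hz2.const_mul c
    simpa using this
  -- norms of `w`
  have hwn : Tendsto (fun k => ‖w k‖) atTop (𝓝 (1 - ‖G‖)) := by
    have h1 := brezisLieb P w hw0 G
    have h2 : ∀ k, ‖G + w k‖ = 1 := fun k => by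
      rw [hw]; simp only [add_sub_cancel]; exact hu1 k
    simp_rw [h2] at h1
    have h3 : Tendsto (fun k => 1 - (1 - ‖w k‖)) atTop (𝓝 (1 - ‖G‖)) := h1.const_sub 1
    simpa using h3
  -- separation
  have hsep : ∀ m, ‖G‖ ≤ ‖w m‖ := by
    intro m
    have h1 := brezisLieb P (fun k => (-1 : ℝ) • w k) (hwsc (-1)) (w m)
    have h2 : Tendsto (fun k => ‖w m + (-1 : ℝ) • w k‖) atTop (𝓝 (‖w m‖ + (1 - ‖G‖))) := by
      have h3 := h1.add hwn
      refine h3.congr fun k => ?_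
      simp
    have h4 : ∀ᶠ k in atTop, 1 ≤ ‖w m + (-1 : ℝ) • w k‖ := by
      filter_upwards [eventually_gt_atTop m] with k hk
      have : w m + (-1 : ℝ) • w k = u m - u k := by
        rw [hw]; simp only [neg_smul, one_smul]; abel
      rw [this]; exact hu2 m k hk
    have h5 := ge_of_tendsto h2 h4
    linarith
  have hG2 : ‖G‖ ≤ 1 / 2 := by
    have := ge_of_tendsto hwn (Eventually.of_forall hsep)
    linarith
  -- the averaged quantity
  have hA : Tendsto (fun k => ‖(x : Lp ℝ 1 P) + t • u k‖) atTop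
      (𝓝 (‖(x : Lp ℝ 1 P) + t • G‖ + t * (1 - ‖G‖))) := by
    have h1 := brezisLieb P (fun k => t • w k) (hwsc t) ((x : Lp ℝ 1 P) + t • G)
    have h3 := h1.add (hwn.const_mul t)
    refine h3.congr fun k => ?_
    have h4 : (x : Lp ℝ 1 P) + t • G + t • w k = x + t • u k := by
      rw [hw]; simp only [smul_sub]; abel
    rw [h4, norm_smul, Real.norm_of_nonneg ht.le]; ring
  have hA' : Tendsto (fun k => ‖(x : Lp ℝ 1 P) - t • u k‖) atTop
      (𝓝 (‖(x : Lp ℝ 1 P) - t • G‖ + t * (1 - ‖G‖))) := by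
    have h1 := brezisLieb P (fun k => (-t) • w k) (hwsc (-t)) ((x : Lp ℝ 1 P) - t • G)
    have h3 := h1.add (hwn.const_mul t)
    refine h3.congr fun k => ?_
    have h4 : (x : Lp ℝ 1 P) - t • G + (-t) • w k = x - t • u k := by
      rw [hw]; simp only [neg_smul, smul_sub]; abel
    rw [h4, norm_smul, norm_neg, Real.norm_of_nonneg ht.le]; ring
  have hB := (hA.add hA').div_const 2
  have h5 := le_of_tendsto hB (Eventually.of_forall fun k => (hu3 k).le)
  have h6 : 2 * ‖(x : Lp ℝ 1 P)‖ ≤ ‖(x : Lp ℝ 1 P) + t • G‖ + ‖(x : Lp ℝ 1 P) - t • G‖ := by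
    have h7 : (2 : ℝ) • (x : Lp ℝ 1 P) = ((x : Lp ℝ 1 P) + t • G) + (x - t • G) := by
      rw [two_smul]; abel
    have h8 := norm_add_le ((x : Lp ℝ 1 P) + t • G) (x - t • G)
    rw [← h7, norm_smul] at h8
    simpa using h8
  have h9 : ‖(x : Lp ℝ 1 P)‖ = 1 := hx
  rw [h9] at h6
  nlinarith

end Crest.Agent.R125.MeasureCompact
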