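import Mathlib
import Crest.Prelude.Def_TreePotentials
import Crest.Agent.R125.Core
import Crest.Agent.R125.Prop
import Crest.Prelude.Def_AsymptoticConvexity

-- ▼ part R125/PotComb
section

/-!
Combining two tests of a bounded-potential model (result 125).
-/

set_option autoImplicit false

namespace Crest.Agent.R125.Pot

open Crest.AnalysisR Crest.AnalysisR.TreePotential

/-- Pointwise square domination transfers the extra condition. -/
theorem extra_of_sq_le {m : PotentialModel} {f g h : List ℕ → ℝ} {a b : ℝ}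
    (hab : a ^ 2 + b ^ 2 ≤ 1) (hf : ExtraCondition m f) (hg : ExtraCondition m g)
    (hsq : ∀ s, h s ^ 2 ≤ a ^ 2 * f s ^ 2 + b ^ 2 * g s ^ 2) : ExtraCondition m h := by
  have key : ∀ {ι : Type} (B : Finset ι) (v : ι → List ℕ), (∑ i ∈ B, f (v i) ^ 2 ≤ 1) →
      (∑ i ∈ B, g (v i) ^ 2 ≤ 1) → ∑ i ∈ B, h (v i) ^ 2 ≤ 1 := by
    intro ι B v h1 h2
    calc ∑ i ∈ B, h (v i) ^ 2 ≤ ∑ i ∈ B, (a ^ 2 * f (v i) ^ 2 + b ^ 2 * g (v i) ^ 2) :=
          Finset.sum_le_sum fun i _ => hsq _
      _ = a ^ 2 * ∑ i ∈ B, f (v i) ^ 2 + b ^ 2 * ∑ i ∈ B, g (v i) ^ 2 := by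
          rw [Finset.sum_add_distrib, Finset.mul_sum, Finset.mul_sum]
      _ ≤ a ^ 2 * 1 + b ^ 2 * 1 := by
          have := sq_nonneg a
          have := sq_nonneg b
          gcongr
      _ ≤ 1 := by linarith
  cases m with
  | rootlessSibling =>
    obtain ⟨hf0, hf1⟩ := hf
    obtain ⟨hg0, hg1⟩ := hg
    refine ⟨?_, fun r B => key B (fun n => n :: r) (hf1 r B) (hg1 r B)⟩
    have h0 := hsq []
    rw [hf0, hg0] at h0
    have h1 : h [] ^ 2 = 0 := le_antisymm (by simpa using h0) (sq_nonneg _)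
    simpa using h1
  | rootedSibling =>
    exact fun r B => key B (fun n => n :: r) (hf r B) (hg r B)
  | antichain =>
    obtain ⟨hf0, hf1⟩ := hf
    obtain ⟨hg0, hg1⟩ := hg
    refine ⟨(hf0.union hg0).subset ?_, fun B hB => key B (fun s => s) (hf1 B hB) (hg1 B hB)⟩
    intro s hs
    by_contra hcon
    simp only [Set.mem_union, Function.mem_support, not_or, not_not] at hcon
    have h0 := hsq s
    rw [hcon.1, hcon.2] at h0
    have h1 : h s ^ 2 = 0 := le_antisymm (by simpa using h0) (sq_nonneg _)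
    exact hs (by simpa using h1)
  | «global» =>
    exact fun B => key B (fun s => s) (hf B) (hg B)

/-- The value of `φ` at the last ancestor lying in `A` (the root counts as lying in `A`). -/
noncomputable def anchor (A : Set (List ℕ)) (φ : List ℕ → ℝ) : List ℕ → ℝ
  | [] => φ []
  | x :: v => by
      classical
      exact if (x :: v) ∈ A then φ (x :: v) else anchor A φ v

theorem anchor_mem {A : Set (List ℕ)} {φ : List ℕ → ℝ} {s : List ℕ} (hs : s ∈ A) :
    anchor A φ s = φ s := by
  cases s with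
  | nil => rfl
  | cons x v => simp [anchor, hs]

theorem anchor_cons_notMem {A : Set (List ℕ)} {φ : List ℕ → ℝ} {x : ℕ} {v : List ℕ}
    (hs : (x :: v) ∉ A) : anchor A φ (x :: v) = anchor A φ v := by
  simp [anchor, hs]

theorem anchor_prop {A : Set (List ℕ)} {φ : List ℕ → ℝ} {Q : ℝ → Prop} (hφ : ∀ s, Q (φ s))
    (s : List ℕ) : Q (anchor A φ s) := by
  induction s with
  | nil => exact hφ []
  | cons x v ih =>
    by_cases h : (x :: v) ∈ A
    · rw [anchor_mem h]; exact hφ _
    · rw [anchor_cons_notMem h]; exact ih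

/-- The coefficient family with a given potential. -/
def ofPotential (H : List ℕ → ℝ) : List ℕ → ℝ
  | [] => H []
  | x :: v => H (x :: v) - H v

theorem pathPotential_ofPotential (H : List ℕ → ℝ) (s : List ℕ) :
    pathPotential (ofPotential H) s = H s := by
  induction s with
  | nil => rfl
  | cons x v ih => simp [pathPotential, ofPotential, ih]

/-- The piecewise linear profile used for the combined potential. -/
noncomputable def prof (b p z : ℝ) : ℝ :=
  p + b * ((1 - p) / 2 * max z 0 - (1 + p) / 2 * max (-z) 0)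

theorem prof_zero (b p : ℝ) : prof b p 0 = p := by simp [prof]

theorem prof_sub_prof_neg (b p z : ℝ) : prof b p z - prof b p (-z) = b * z := by
  unfold prof
  rw [neg_neg]
  rcases le_total 0 z with h | h
  · rw [max_eq_left h, max_eq_right (by linarith : -z ≤ 0)]; ring
  · rw [max_eq_right h, max_eq_left (by linarith : 0 ≤ -z)]; ring

theorem abs_prof_le {b p z : ℝ} (hb0 : 0 ≤ b) (hb1 : b ≤ 1) (hp : |p| ≤ 1) (hz : |z| ≤ 2) :
    |prof b p z| ≤ 1 := by
  obtain ⟨hp1, hp2⟩ := abs_le.mp hp
  obtain ⟨hz1, hz2⟩ := abs_le.mp hz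
  unfold prof
  rcases le_total 0 z with h | h
  · rw [max_eq_left h, max_eq_right (by linarith : -z ≤ 0)]
    have h1 : 0 ≤ (1 - p) / 2 * z := mul_nonneg (by linarith) h
    have h2 : (1 - p) / 2 * z ≤ (1 - p) / 2 * 2 := mul_le_mul_of_nonneg_left hz2 (by linarith)
    have h3 : 0 ≤ b * ((1 - p) / 2 * z) := mul_nonneg hb0 h1
    have h4 : b * ((1 - p) / 2 * z) ≤ 1 * ((1 - p) / 2 * z) := mul_le_mul_of_nonneg_right hb1 h1
    rw [abs_le]
    constructor <;> nlinarith
  · rw [max_eq_right h, max_eq_left (by linarith : 0 ≤ -z)]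
    have h1 : 0 ≤ (1 + p) / 2 * (-z) := mul_nonneg (by linarith) (by linarith)
    have h2 : (1 + p) / 2 * (-z) ≤ (1 + p) / 2 * 2 :=
      mul_le_mul_of_nonneg_left (by linarith) (by linarith)
    have h3 : 0 ≤ b * ((1 + p) / 2 * (-z)) := mul_nonneg hb0 h1
    have h4 : b * ((1 + p) / 2 * (-z)) ≤ 1 * ((1 + p) / 2 * (-z)) :=
      mul_le_mul_of_nonneg_right hb1 h1
    rw [abs_le]
    constructor <;> nlinarith

theorem abs_prof_sub_le {b p z w : ℝ} (hb0 : 0 ≤ b) (hp : |p| ≤ 1) :
    |prof b p z - prof b p w| ≤ b * |z - w| := by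
  obtain ⟨hp1, hp2⟩ := abs_le.mp hp
  have main : ∀ z w : ℝ, w ≤ z → |prof b p z - prof b p w| ≤ b * |z - w| := by
    intro z w hwz
    have hzw : |z - w| = z - w := abs_of_nonneg (by linarith)
    rw [hzw]
    have e : prof b p z - prof b p w = b * ((1 - p) / 2 * (max z 0 - max w 0) +
        (1 + p) / 2 * (max (-w) 0 - max (-z) 0)) := by
      unfold prof; ring
    have m1 : 0 ≤ max z 0 - max w 0 := by
      have := max_le_max hwz (le_refl (0 : ℝ)); linarith
    have m2 : 0 ≤ max (-w) 0 - max (-z) 0 := by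
      have := max_le_max (neg_le_neg hwz) (le_refl (0 : ℝ)); linarith
    have m3 : (max z 0 - max w 0) + (max (-w) 0 - max (-z) 0) = z - w := by
      have h1 : max z 0 - max (-z) 0 = z := by
        rcases le_total 0 z with h | h
        · rw [max_eq_left h, max_eq_right (by linarith : -z ≤ 0)]; ring
        · rw [max_eq_right h, max_eq_left (by linarith : 0 ≤ -z)]; ring
      have h2 : max w 0 - max (-w) 0 = w := by
        rcases le_total 0 w with h | h
        · rw [max_eq_left h, max_eq_right (by linarith : -w ≤ 0)]; ring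
        · rw [max_eq_right h, max_eq_left (by linarith : 0 ≤ -w)]; ring
      linarith
    have n1 : 0 ≤ (1 - p) / 2 * (max z 0 - max w 0) := mul_nonneg (by linarith) m1
    have n2 : 0 ≤ (1 + p) / 2 * (max (-w) 0 - max (-z) 0) := mul_nonneg (by linarith) m2
    have n3 : (1 - p) / 2 * (max z 0 - max w 0) ≤ max z 0 - max w 0 := by nlinarith
    have n4 : (1 + p) / 2 * (max (-w) 0 - max (-z) 0) ≤ max (-w) 0 - max (-z) 0 := by nlinarith
    rw [e, abs_of_nonneg (mul_nonneg hb0 (by linarith))]
    refine mul_le_mul_of_nonneg_left ?_ hb0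
    linarith
  rcases le_total w z with h | h
  · exact main z w h
  · rw [abs_sub_comm, abs_sub_comm z w]; exact main w z h

/-- The combined potential. -/
noncomputable def combPot (A : Set (List ℕ)) (a b : ℝ) (f g : List ℕ → ℝ) (s : List ℕ) : ℝ :=
  prof b (a * anchor A (pathPotential f) s) (pathPotential g s - anchor A (pathPotential g) s)

/-- The second combined potential. -/
noncomputable def combPot' (A : Set (List ℕ)) (a b : ℝ) (f g : List ℕ → ℝ) (s : List ℕ) : ℝ :=
  prof b (a * anchor A (pathPotential f) s) (-(pathPotential g s - anchor A (pathPotential g) s))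

section

variable {m : PotentialModel} {A : Set (List ℕ)} {a b : ℝ} {f g : List ℕ → ℝ}

theorem comb_on (hA0 : [] ∈ A) (hA : ∀ (x : ℕ) (v : List ℕ), (x :: v) ∈ A → v ∈ A)
    {s : List ℕ} (hs : s ∈ A) : ofPotential (combPot A a b f g) s = a * f s := by
  have hval : ∀ t ∈ A, combPot A a b f g t = a * pathPotential f t := by
    intro t ht
    rw [combPot, anchor_mem ht, anchor_mem ht, sub_self, prof_zero]
  cases s with
  | nil => simp [ofPotential, hval [] hA0, pathPotential]
  | cons x v =>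
    simp only [ofPotential]
    rw [hval _ hs, hval _ (hA x v hs)]
    simp [pathPotential]; ring

theorem comb_on' (hA0 : [] ∈ A) (hA : ∀ (x : ℕ) (v : List ℕ), (x :: v) ∈ A → v ∈ A)
    {s : List ℕ} (hs : s ∈ A) : ofPotential (combPot' A a b f g) s = a * f s := by
  have hval : ∀ t ∈ A, combPot' A a b f g t = a * pathPotential f t := by
    intro t ht
    rw [combPot', anchor_mem ht, anchor_mem ht, sub_self, neg_zero, prof_zero]
  cases s with
  | nil => simp [ofPotential, hval [] hA0, pathPotential]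
  | cons x v =>
    simp only [ofPotential]
    rw [hval _ hs, hval _ (hA x v hs)]
    simp [pathPotential]; ring

theorem abs_mul_anchor_le (ha0 : 0 ≤ a) (ha1 : a ≤ 1)
    (hf : ∀ s, |pathPotential f s| ≤ 1) (s : List ℕ) :
    |a * anchor A (pathPotential f) s| ≤ 1 := by
  have h1 : |anchor A (pathPotential f) s| ≤ 1 :=
    anchor_prop (Q := fun z => |z| ≤ 1) hf s
  rw [abs_mul, abs_of_nonneg ha0]
  calc a * |anchor A (pathPotential f) s| ≤ 1 * 1 :=
        mul_le_mul ha1 h1 (abs_nonneg _) zero_le_one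
    _ = 1 := one_mul 1

theorem comb_off (hA0 : [] ∈ A) (ha0 : 0 ≤ a) (ha1 : a ≤ 1) (hb0 : 0 ≤ b)
    (hf : ∀ s, |pathPotential f s| ≤ 1) {s : List ℕ} (hs : s ∉ A) :
    |ofPotential (combPot A a b f g) s| ≤ b * |g s| := by
  cases s with
  | nil => exact absurd hA0 hs
  | cons x v =>
    simp only [ofPotential, combPot]
    rw [anchor_cons_notMem hs, anchor_cons_notMem hs]
    refine (abs_prof_sub_le hb0 (abs_mul_anchor_le ha0 ha1 hf v)).trans (le_of_eq ?_)
    congr 2
    simp [pathPotential]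

theorem comb_off' (hA0 : [] ∈ A) (ha0 : 0 ≤ a) (ha1 : a ≤ 1) (hb0 : 0 ≤ b)
    (hf : ∀ s, |pathPotential f s| ≤ 1) {s : List ℕ} (hs : s ∉ A) :
    |ofPotential (combPot' A a b f g) s| ≤ b * |g s| := by
  cases s with
  | nil => exact absurd hA0 hs
  | cons x v =>
    simp only [ofPotential, combPot']
    rw [anchor_cons_notMem hs, anchor_cons_notMem hs]
    refine (abs_prof_sub_le hb0 (abs_mul_anchor_le ha0 ha1 hf v)).trans (le_of_eq ?_)
    congr 1
    rw [← abs_neg]
    congr 1
    simp [pathPotential]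

theorem comb_diff (hA0 : [] ∈ A) {s : List ℕ} (hs : s ∉ A) :
    ofPotential (combPot A a b f g) s - ofPotential (combPot' A a b f g) s = b * g s := by
  cases s with
  | nil => exact absurd hA0 hs
  | cons x v =>
    simp only [ofPotential, combPot, combPot']
    rw [anchor_cons_notMem hs, anchor_cons_notMem hs]
    have h1 := prof_sub_prof_neg b (a * anchor A (pathPotential f) v)
      (pathPotential g (x :: v) - anchor A (pathPotential g) v)
    have h2 := prof_sub_prof_neg b (a * anchor A (pathPotential f) v)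
      (pathPotential g v - anchor A (pathPotential g) v)
    have h3 : pathPotential g (x :: v) = pathPotential g v + g (x :: v) := rfl
    rw [h3] at h1 ⊢
    linear_combination h1 - h2

theorem abs_combPot_le (ha0 : 0 ≤ a) (ha1 : a ≤ 1) (hb0 : 0 ≤ b) (hb1 : b ≤ 1)
    (hf : ∀ s, |pathPotential f s| ≤ 1) (hg : ∀ s, |pathPotential g s| ≤ 1) (s : List ℕ) :
    |combPot A a b f g s| ≤ 1 ∧ |combPot' A a b f g s| ≤ 1 := by
  have h1 := abs_mul_anchor_le (A := A) ha0 ha1 hf s
  have h2 : |anchor A (pathPotential g) s| ≤ 1 :=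
    anchor_prop (Q := fun z => |z| ≤ 1) hg s
  have h3 : |pathPotential g s - anchor A (pathPotential g) s| ≤ 2 := by
    have h4 := hg s
    rw [abs_le] at *
    constructor <;> linarith [h2.1, h2.2, h4.1, h4.2]
  refine ⟨abs_prof_le hb0 hb1 h1 h3, abs_prof_le hb0 hb1 h1 ?_⟩
  rwa [abs_neg]

/-- Main combination lemma. -/
theorem exists_comb (hA0 : [] ∈ A) (hA : ∀ (x : ℕ) (v : List ℕ), (x :: v) ∈ A → v ∈ A)
    (ha0 : 0 ≤ a) (hb0 : 0 ≤ b) (hab : a ^ 2 + b ^ 2 ≤ 1)
    (hf : IsTest m f) (hg : IsTest m g) :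
    ∃ h₁ h₂ : List ℕ → ℝ, IsTest m h₁ ∧ IsTest m h₂ ∧
      (∀ s ∈ A, h₁ s = a * f s ∧ h₂ s = a * f s) ∧
      (∀ s, s ∉ A → h₁ s - h₂ s = b * g s) := by
  have ha1 : a ≤ 1 := by nlinarith [sq_nonneg b]
  have hb1 : b ≤ 1 := by nlinarith [sq_nonneg a]
  have hsq : ∀ h : List ℕ → ℝ, (∀ s ∈ A, h s = a * f s) → (∀ s, s ∉ A → |h s| ≤ b * |g s|) →
      ∀ s, h s ^ 2 ≤ a ^ 2 * f s ^ 2 + b ^ 2 * g s ^ 2 := by
    intro h h1 h2 s
    by_cases hs : s ∈ A
    · rw [h1 s hs, mul_pow]
      have := mul_nonneg (sq_nonneg b) (sq_nonneg (g s))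
      linarith
    · have h3 := h2 s hs
      have h4 : h s ^ 2 ≤ (b * |g s|) ^ 2 := by
        rw [← sq_abs (h s)]
        exact pow_le_pow_left₀ (abs_nonneg _) h3 2
      rw [mul_pow, sq_abs] at h4
      have := mul_nonneg (sq_nonneg a) (sq_nonneg (f s))
      linarith
  refine ⟨ofPotential (combPot A a b f g), ofPotential (combPot' A a b f g),
    ⟨fun s => ?_, ?_⟩, ⟨fun s => ?_, ?_⟩, fun s hs => ⟨comb_on hA0 hA hs, comb_on' hA0 hA hs⟩,
    fun s hs => comb_diff hA0 hs⟩
  · rw [pathPotential_ofPotential]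
    exact (abs_combPot_le ha0 ha1 hb0 hb1 hf.1 hg.1 s).1
  · exact extra_of_sq_le hab hf.2 hg.2
      (hsq _ (fun s hs => comb_on hA0 hA hs) (fun s hs => comb_off hA0 ha0 ha1 hb0 hf.1 hs))
  · rw [pathPotential_ofPotential]
    exact (abs_combPot_le ha0 ha1 hb0 hb1 hf.1 hg.1 s).2
  · exact extra_of_sq_le hab hf.2 hg.2
      (hsq _ (fun s hs => comb_on' hA0 hA hs) (fun s hs => comb_off' hA0 ha0 ha1 hb0 hf.1 hs))

end

end Crest.Agent.R125.Pot
private theorem rz_ef647dcdd4 : type_of% @_root_.Crest.Agent.R125.Pot.anchor.eq_def := @_root_.Crest.Agent.R125.Pot.anchor.eq_def -- L56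
private theorem rz_09c2e1f706 : type_of% @_root_.Crest.Agent.R125.Pot.anchor.eq_1 := @_root_.Crest.Agent.R125.Pot.anchor.eq_1 -- L56
private theorem rz_ec75005565 : type_of% @_root_.Crest.Agent.R125.Pot.ofPotential.eq_1 := @_root_.Crest.Agent.R125.Pot.ofPotential.eq_1 -- L82
end

-- ▼ part R125/PotM
section

/-!
Property (M) and absence of equivalent AUC norms for the bounded-potential models (result 125).
-/

set_option autoImplicit false

namespace Crest.Agent.R125.Pot

open Crest.AnalysisR Crest.AnalysisR.TreePotential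

/-- ambient space -/
abbrev Amb (m : PotentialModel) := lp (fun _ : PotentialTest m => ℝ) ⊤

/-- evaluation at a test -/
noncomputable def ev {m : PotentialModel} (h : PotentialTest m) : Amb m →L[ℝ] ℝ :=
  lp.evalCLM ℝ (fun _ : PotentialTest m => ℝ) ⊤ h


theorem ev_coord {m : PotentialModel} (h : PotentialTest m) (s : List ℕ) :
    ev h (coordVector m s) = h.1 s := rfl

theorem abs_ev_le {m : PotentialModel} (h : PotentialTest m) (x : Amb m) : |ev h x| ≤ ‖x‖ :=
  lp.norm_apply_le_norm (by simp) x h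

/-- A continuous functional vanishing on the coordinate vectors vanishes on the model space. -/
theorem vanish_of_coord {m : PotentialModel} (L : Amb m →L[ℝ] ℝ)
    (hL : ∀ s, L (coordVector m s) = 0) (x : Amb m) (hx : x ∈ modelSpace m) : L x = 0 := by
  have h1 : modelSpace m ≤ LinearMap.ker (L : Amb m →ₗ[ℝ] ℝ) := by
    refine Submodule.topologicalClosure_minimal _ ?_ ?_
    · rw [Submodule.span_le]
      rintro _ ⟨s, rfl⟩
      exact hL s
    · exact L.isClosed_ker
  exact h1 hx

/-! ### tests -/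

theorem extra_of_global {m : PotentialModel} {f : List ℕ → ℝ}
    (h0 : m = .rootlessSibling → f [] = 0)
    (hfin : (Function.support f).Finite)
    (hg : ∀ A : Finset (List ℕ), ∑ u ∈ A, f u ^ 2 ≤ 1) : ExtraCondition m f := by
  have hch : ∀ (r : List ℕ) (A : Finset ℕ), ∑ n ∈ A, f (n :: r) ^ 2 ≤ 1 := by
    intro r A
    have h := hg (A.map ⟨fun n => n :: r, fun a b hab => by simpa using hab⟩)
    rw [Finset.sum_map] at h
    exact h
  cases m with
  | rootlessSibling => exact ⟨h0 rfl, hch⟩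
  | rootedSibling => exact hch
  | antichain => exact ⟨hfin, fun A _ => hg A⟩
  | «global» => exact hg

theorem extra_children {m : PotentialModel} {f : List ℕ → ℝ} (hf : ExtraCondition m f)
    (r : List ℕ) (A : Finset ℕ) : ∑ n ∈ A, f (n :: r) ^ 2 ≤ 1 := by
  cases m with
  | rootlessSibling => exact hf.2 r A
  | rootedSibling => exact hf r A
  | antichain =>
    have h := hf.2 (A.map ⟨fun n => n :: r, fun a b hab => by simpa using hab⟩) (by
      intro u hu v hv huv hsuf
      simp only [Finset.mem_map] at hu hv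
      obtain ⟨a, -, ha⟩ := hu
      obtain ⟨b, -, hb⟩ := hv
      refine huv (hsuf.eq_of_length ?_)
      rw [← ha, ← hb]
      rfl)
    rw [Finset.sum_map] at h
    exact h
  | «global» =>
    have h := hf (A.map ⟨fun n => n :: r, fun a b hab => by simpa using hab⟩)
    rw [Finset.sum_map] at h
    exact h

theorem isTest_zero (m : PotentialModel) : IsTest m (fun _ => 0) := by
  refine ⟨fun s => ?_, extra_of_global (fun _ => rfl) ?_ ?_⟩
  · have : pathPotential (fun _ => 0) s = 0 := by
      induction s with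
      | nil => rfl
      | cons x v ih => simp [pathPotential, ih]
    rw [this]; simp
  · simp
  · intro A; simp

theorem isTest_neg {m : PotentialModel} {f : List ℕ → ℝ} (hf : IsTest m f) :
    IsTest m (fun s => - f s) := by
  refine ⟨fun s => ?_, ?_⟩
  · have : pathPotential (fun s => - f s) s = - pathPotential f s := by
      induction s with
      | nil => rfl
      | cons x v ih => simp [pathPotential, ih]; ring
    rw [this, abs_neg]; exact hf.1 s
  · refine extra_of_sq_le (a := 1) (b := 0) (by norm_num) hf.2 hf.2 (fun s => ?_)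
    simp

theorem pathPotential_single (s t : List ℕ) :
    pathPotential (Pi.single s 1) t = if s <:+ t then 1 else 0 := by
  induction t with
  | nil =>
    by_cases h : s = []
    · subst h; simp [pathPotential]
    · have : ¬ s <:+ [] := by simpa using h
      rw [if_neg this]
      simp only [pathPotential]
      rw [Pi.single_apply, if_neg]
      exact fun h' => h h'.symm
  | cons x v ih =>
    simp only [pathPotential]
    rw [ih, Pi.single_apply]
    by_cases h : x :: v = s
    · have h1 : ¬ s <:+ v := by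
        intro hs
        have := hs.length_le
        rw [← h] at this
        simp at this
      rw [if_neg h1, if_pos h, if_pos (h ▸ List.suffix_refl _)]
      ring
    · rw [if_neg h, add_zero]
      have : s <:+ x :: v ↔ s <:+ v := by
        rw [List.suffix_cons_iff]
        constructor
        · rintro (h' | h')
          · exact absurd h'.symm h
          · exact h'
        · exact Or.inr
      simp only [this]

theorem isTest_single {m : PotentialModel} {s : List ℕ} (hs : m = .rootlessSibling → s ≠ []) :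
    IsTest m (Pi.single s 1) := by
  refine ⟨fun t => ?_, extra_of_global ?_ ?_ ?_⟩
  · rw [pathPotential_single]
    split_ifs <;> simp
  · intro hm
    rw [Pi.single_apply, if_neg]
    exact fun h' => hs hm h'.symm
  · exact (Set.finite_singleton s).subset (Pi.support_single_subset)
  · intro A
    have h1 : ∀ u ∈ A, (Pi.single s (1 : ℝ) : List ℕ → ℝ) u ^ 2 = if u = s then 1 else 0 := by
      intro u _
      rw [Pi.single_apply]
      split_ifs <;> simp
    rw [Finset.sum_congr rfl h1, Finset.sum_ite_eq']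
    split_ifs <;> norm_num

/-- The dual coordinate family. -/
noncomputable def deltaFun (m : PotentialModel) (s : List ℕ) : List ℕ → ℝ := by
  classical
  exact if m = .rootlessSibling → s ≠ [] then Pi.single s 1 else fun _ => 0

theorem deltaFun_pos {m : PotentialModel} {s : List ℕ} (hs : m = .rootlessSibling → s ≠ []) :
    deltaFun m s = Pi.single s 1 := by
  classical
  unfold deltaFun
  exact if_pos hs

theorem deltaFun_neg {m : PotentialModel} {s : List ℕ} (hs : ¬ (m = .rootlessSibling → s ≠ [])) :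
    deltaFun m s = fun _ => 0 := by
  classical
  unfold deltaFun
  exact if_neg hs

theorem isTest_deltaFun (m : PotentialModel) (s : List ℕ) : IsTest m (deltaFun m s) := by
  by_cases hs : m = .rootlessSibling → s ≠ []
  · rw [deltaFun_pos hs]; exact isTest_single hs
  · rw [deltaFun_neg hs]; exact isTest_zero m

/-- The dual coordinate test. -/
noncomputable def deltaTest (m : PotentialModel) (s : List ℕ) : PotentialTest m :=
  ⟨deltaFun m s, isTest_deltaFun m s⟩

theorem deltaFun_mul {m : PotentialModel} {g : List ℕ → ℝ} (hg : IsTest m g) (s t : List ℕ) :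
    g s * deltaFun m s t = if t = s then g t else 0 := by
  by_cases hs : m = .rootlessSibling → s ≠ []
  · rw [deltaFun_pos hs, Pi.single_apply]
    by_cases h : t = s
    · rw [if_pos h, if_pos h, h, mul_one]
    · rw [if_neg h, if_neg h, mul_zero]
  · rw [deltaFun_neg hs]
    push Not at hs
    obtain ⟨hm, hs⟩ := hs
    subst hm
    have hg0 : g [] = 0 := hg.2.1
    simp only [mul_zero]
    by_cases h : t = s
    · rw [if_pos h, h, hs, hg0]
    · rw [if_neg h]

theorem deltaFun_apply_self {m : PotentialModel} {s : List ℕ}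
    (hs : m = .rootlessSibling → s ≠ []) : deltaFun m s s = 1 := by
  rw [deltaFun_pos hs]
  simp

/-- negated test -/
def negTest {m : PotentialModel} (h : PotentialTest m) : PotentialTest m :=
  ⟨fun s => - h.1 s, isTest_neg h.2⟩

instance (m : PotentialModel) : Nonempty (PotentialTest m) := ⟨⟨fun _ => 0, isTest_zero m⟩⟩

theorem ev_negTest {m : PotentialModel} (h : PotentialTest m) (x : Amb m)
    (hx : x ∈ modelSpace m) : ev (negTest h) x = - ev h x := by
  have := vanish_of_coord (ev (negTest h) + ev h) (fun s => by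
    rw [add_apply, ev_coord, ev_coord]
    simp [negTest]) x hx
  rw [add_apply] at this
  linarith

/-- norming tests -/
theorem exists_norming {m : PotentialModel} (x : Amb m) (hx : x ∈ modelSpace m)
    {ε : ℝ} (hε : 0 < ε) : ∃ h : PotentialTest m, ‖x‖ - ε < ev h x := by
  have hlub := lp.isLUB_norm x
  obtain ⟨_, ⟨h, rfl⟩, hlt, -⟩ := hlub.exists_between (show ‖x‖ - ε < ‖x‖ by linarith)
  change ‖x‖ - ε < |ev h x| at hlt
  rcases le_total 0 (ev h x) with h0 | h0
  · exact ⟨h, by rwa [abs_of_nonneg h0] at hlt⟩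
  · refine ⟨negTest h, ?_⟩
    rw [ev_negTest h x hx]
    rwa [abs_of_nonpos h0] at hlt

theorem norm_le_of_ev {m : PotentialModel} (x : Amb m) {C : ℝ} 
    (h : ∀ f : PotentialTest m, |ev f x| ≤ C) : ‖x‖ ≤ C :=
  lp.norm_le_of_forall_le' C h

/-! ### property (M) -/

/-- The suffix closure of a finite set of vertices, together with the root. -/
def sufClosure (B : Finset (List ℕ)) : Finset (List ℕ) :=
  insert [] (B.biUnion fun s => s.tails.toFinset)

theorem nil_mem_sufClosure (B : Finset (List ℕ)) : [] ∈ sufClosure B :=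
  Finset.mem_insert_self _ _

theorem subset_sufClosure (B : Finset (List ℕ)) : B ⊆ sufClosure B := by
  intro s hs
  refine Finset.mem_insert_of_mem (Finset.mem_biUnion.mpr ⟨s, hs, ?_⟩)
  simp

theorem sufClosure_parent (B : Finset (List ℕ)) (x : ℕ) (v : List ℕ)
    (h : (x :: v) ∈ sufClosure B) : v ∈ sufClosure B := by
  rw [sufClosure, Finset.mem_insert] at h
  rcases h with h | h
  · simp at h
  · rw [Finset.mem_biUnion] at h
    obtain ⟨s, hs, hsv⟩ := h
    refine Finset.mem_insert_of_mem (Finset.mem_biUnion.mpr ⟨s, hs, ?_⟩)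
    simp only [List.mem_toFinset, List.mem_tails] at hsv ⊢
    exact (List.suffix_cons x v).trans hsv

theorem sqrt_add_le (u v w : ℝ) (hv : 0 ≤ v) :
    Real.sqrt ((u + v) ^ 2 + w ^ 2) ≤ Real.sqrt (u ^ 2 + w ^ 2) + v := by
  rw [Real.sqrt_le_left (by positivity)]
  have h1 : |u| ≤ Real.sqrt (u ^ 2 + w ^ 2) := by
    rw [← Real.sqrt_sq_eq_abs]
    exact Real.sqrt_le_sqrt (by nlinarith [sq_nonneg w])
  have h2 : Real.sqrt (u ^ 2 + w ^ 2) ^ 2 = u ^ 2 + w ^ 2 := Real.sq_sqrt (by positivity)
  have h3 := le_abs_self u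
  nlinarith [Real.sqrt_nonneg (u ^ 2 + w ^ 2)]

theorem finiteDimensional_quot_ker {X V : Type*} [AddCommGroup X] [Module ℝ X] [AddCommGroup V]
    [Module ℝ V] [FiniteDimensional ℝ V] (T : X →ₗ[ℝ] V) :
    FiniteDimensional ℝ (X ⧸ LinearMap.ker T) :=
  (LinearMap.quotKerEquivRange T).symm.finiteDimensional

theorem exists_ab (u w : ℝ) (hu : 0 ≤ u) (hw : 0 ≤ w) : ∃ a b : ℝ, 0 ≤ a ∧ 0 ≤ b ∧ a ≤ 1 ∧ b ≤ 1 ∧
    a ^ 2 + b ^ 2 ≤ 1 ∧ 2 * a * u + b * (2 * w) = 2 * Real.sqrt (u ^ 2 + w ^ 2) := by
  set R : ℝ := Real.sqrt (u ^ 2 + w ^ 2) with hR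
  have hR0 : 0 ≤ R := Real.sqrt_nonneg _
  have hR2 : R ^ 2 = u ^ 2 + w ^ 2 := Real.sq_sqrt (by positivity)
  rcases hR0.eq_or_lt with h0 | hpos
  · refine ⟨0, 0, le_rfl, le_rfl, zero_le_one, zero_le_one, by norm_num, ?_⟩
    rw [← h0]; ring
  · have hab : (u / R) ^ 2 + (w / R) ^ 2 = 1 := by
      rw [div_pow, div_pow, ← add_div, ← hR2]
      exact div_self (by positivity)
    refine ⟨u / R, w / R, by positivity, by positivity, ?_, ?_, hab.le, ?_⟩
    · nlinarith [sq_nonneg (w / R)]
    · nlinarith [sq_nonneg (u / R)]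
    · have h5 : 2 * (u / R) * u + w / R * (2 * w) = 2 * ((u ^ 2 + w ^ 2) / R) := by ring
      rw [h5, ← hR2]
      field_simp

theorem propM_modelSpace (m : PotentialModel) : PropM (modelSpace m) := by
  classical
  intro x ε hε
  set ε' : ℝ := ε / 8 with hε'
  have hε'pos : 0 < ε' := by positivity
  -- finitely supported approximation
  obtain ⟨x', hx'span, hx'dist⟩ : ∃ x' ∈ Submodule.span ℝ (Set.range (coordVector m)),
      ‖(x : Amb m) - x'‖ ≤ ε' := by
    have hxcl : (x : Amb m) ∈ closure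
        (Submodule.span ℝ (Set.range (coordVector m)) : Set (Amb m)) := x.2
    obtain ⟨x', h1, h2⟩ := Metric.mem_closure_iff.mp hxcl ε' hε'pos
    exact ⟨x', h1, by rw [← dist_eq_norm]; exact h2.le⟩
  obtain ⟨c, hc⟩ := Finsupp.mem_span_range_iff_exists_finsupp.mp hx'span
  have hx'mem : x' ∈ modelSpace m := Submodule.le_topologicalClosure _ hx'span
  set A : Finset (List ℕ) := sufClosure c.support with hA
  -- the cofinite subspace
  let T : modelSpace m →L[ℝ] (A → ℝ) :=
    ContinuousLinearMap.pi fun s => (ev (deltaTest m s.1)).comp (modelSpace m).subtypeL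
  refine ⟨LinearMap.ker (T : modelSpace m →ₗ[ℝ] (A → ℝ)), T.isClosed_ker, ?_, ?_⟩
  · exact finiteDimensional_quot_ker _
  intro y hy
  have hyA : ∀ s ∈ A, ev (deltaTest m s) (y : Amb m) = 0 := by
    intro s hs
    have h1 : T y = 0 := hy
    exact congrFun h1 ⟨s, hs⟩
  -- evaluation of the combination
  have key : ∀ a b : ℝ, 0 ≤ a → 0 ≤ b → a ^ 2 + b ^ 2 ≤ 1 →
      ∀ f g : PotentialTest m, 2 * a * ev f x' + b * ev g (y : Amb m) ≤
        ‖x' + y‖ + ‖x' - y‖ := by
    intro a b ha hb hab f g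
    obtain ⟨h₁, h₂, ht₁, ht₂, hon, hoff⟩ := exists_comb (A := (A : Set (List ℕ)))
      (nil_mem_sufClosure _) (fun x v h => sufClosure_parent _ x v h) ha hb hab f.2 g.2
    let k₁ : PotentialTest m := ⟨h₁, ht₁⟩
    let k₂ : PotentialTest m := ⟨h₂, ht₂⟩
    have hx1 : ev k₁ x' = a * ev f x' := by
      rw [← hc, Finsupp.sum, map_sum, map_sum, Finset.mul_sum]
      refine Finset.sum_congr rfl fun s hs => ?_
      rw [map_smul, map_smul, ev_coord, ev_coord, smul_eq_mul, smul_eq_mul]
      have h3 : k₁.1 s = a * f.1 s := (hon s (subset_sufClosure _ hs)).1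
      rw [h3]; ring
    have hx2 : ev k₂ x' = a * ev f x' := by
      rw [← hc, Finsupp.sum, map_sum, map_sum, Finset.mul_sum]
      refine Finset.sum_congr rfl fun s hs => ?_
      rw [map_smul, map_smul, ev_coord, ev_coord, smul_eq_mul, smul_eq_mul]
      have h3 : k₂.1 s = a * f.1 s := (hon s (subset_sufClosure _ hs)).2
      rw [h3]; ring
    have hyd : ev k₁ (y : Amb m) - ev k₂ (y : Amb m) = b * ev g (y : Amb m) := by
      have h4 := vanish_of_coord
        (ev k₁ - ev k₂ - b • ev g + b • ∑ s ∈ A, g.1 s • ev (deltaTest m s)) (fun t => by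
          simp only [add_apply, sub_apply, smul_apply, sum_apply, ev_coord, smul_eq_mul]
          have h5 : ∑ s ∈ A, g.1 s * (deltaTest m s).1 t = if t ∈ A then g.1 t else 0 := by
            have h6 : ∀ s ∈ A, g.1 s * (deltaTest m s).1 t = if t = s then g.1 t else 0 :=
              fun s _ => deltaFun_mul g.2 s t
            rw [Finset.sum_congr rfl h6, Finset.sum_ite_eq]
          rw [h5]
          by_cases ht : t ∈ A
          · rw [if_pos ht]
            have e1 : k₁.1 t = a * f.1 t := (hon t ht).1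
            have e2 : k₂.1 t = a * f.1 t := (hon t ht).2
            rw [e1, e2]; ring
          · rw [if_neg ht]
            have e1 : k₁.1 t - k₂.1 t = b * g.1 t := hoff t ht
            rw [e1]; ring) (y : Amb m) y.2
      simp only [add_apply, sub_apply, smul_apply, sum_apply, smul_eq_mul] at h4
      have h7 : ∑ s ∈ A, g.1 s * ev (deltaTest m s) (y : Amb m) = 0 := by
        refine Finset.sum_eq_zero fun s hs => ?_
        rw [hyA s hs, mul_zero]
      rw [h7] at h4
      linarith
    have n1 := (le_abs_self _).trans (abs_ev_le k₁ (x' + y))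
    have n2 := (le_abs_self _).trans (abs_ev_le k₂ (x' - y))
    rw [map_add] at n1
    rw [map_sub] at n2
    linarith
  -- norming functionals
  obtain ⟨f, hf⟩ := exists_norming x' hx'mem hε'pos
  obtain ⟨g, hg⟩ := exists_norming (y : Amb m) y.2 hε'pos
  have hxx : ‖x‖ ≤ ‖x'‖ + ε' := by
    have h1 : ‖(x : Amb m)‖ ≤ ‖x'‖ + ‖(x : Amb m) - x'‖ := by
      have := norm_add_le x' ((x : Amb m) - x')
      simpa using this
    have h2 : ‖x‖ = ‖(x : Amb m)‖ := rfl
    linarith
  -- passing from x' to x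
  have hplus : ‖x' + y‖ ≤ ‖x + y‖ + ε' := by
    have h1 : ‖x' + (y : Amb m)‖ ≤ ‖(x : Amb m) + y‖ + ‖(x : Amb m) - x'‖ := by
      have h2 : x' + (y : Amb m) = ((x : Amb m) + y) - ((x : Amb m) - x') := by abel
      rw [h2]; exact norm_sub_le _ _
    have h3 : ‖x + y‖ = ‖(x : Amb m) + y‖ := rfl
    linarith
  have hminus : ‖x' - y‖ ≤ ‖x - y‖ + ε' := by
    have h1 : ‖x' - (y : Amb m)‖ ≤ ‖(x : Amb m) - y‖ + ‖(x : Amb m) - x'‖ := by
      have h2 : x' - (y : Amb m) = ((x : Amb m) - y) - ((x : Amb m) - x') := by abel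
      rw [h2]; exact norm_sub_le _ _
    have h3 : ‖x - y‖ = ‖(x : Amb m) - y‖ := rfl
    linarith
  have hyn : ‖(y : Amb m)‖ = ‖y‖ := rfl
  set R : ℝ := Real.sqrt (‖x'‖ ^ 2 + (‖y‖ / 2) ^ 2) with hR
  have hRx : Real.sqrt (‖x‖ ^ 2 + ‖y‖ ^ 2 / 4) ≤ R + ε' := by
    have h1 : ‖y‖ ^ 2 / 4 = (‖y‖ / 2) ^ 2 := by ring
    rw [h1]
    refine le_trans (Real.sqrt_le_sqrt ?_) (sqrt_add_le ‖x'‖ ε' (‖y‖ / 2) hε'pos.le)
    have := pow_le_pow_left₀ (norm_nonneg x) hxx 2
    linarith
  have hmain : 2 * R - 3 * ε' ≤ ‖x' + y‖ + ‖x' - y‖ := by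
    obtain ⟨a, b, ha0, hb0, ha1, hb1, hab, heq⟩ := exists_ab ‖x'‖ (‖y‖ / 2)
      (norm_nonneg _) (by positivity)
    have h1 := key a b ha0 hb0 hab f g
    have h2 : 2 * a * (‖x'‖ - ε') ≤ 2 * a * ev f x' :=
      mul_le_mul_of_nonneg_left hf.le (by positivity)
    have h3 : b * (‖y‖ - ε') ≤ b * ev g (y : Amb m) :=
      mul_le_mul_of_nonneg_left hg.le hb0
    have h6 : a * ε' ≤ 1 * ε' := mul_le_mul_of_nonneg_right ha1 hε'pos.le
    have h7 : b * ε' ≤ 1 * ε' := mul_le_mul_of_nonneg_right hb1 hε'pos.le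
    rw [← hR] at heq
    linarith
  have hfin : ‖x' + y‖ + ‖x' - y‖ ≤ ‖x + y‖ + ‖x - y‖ + 2 * ε' := by linarith
  linarith

end Crest.Agent.R125.Pot
end

-- ▼ part R125/PotTree
section

/-!
The bounded tree of path sums in the bounded-potential models (result 125).
-/

set_option autoImplicit false

namespace Crest.Agent.R125.Pot

open Crest.AnalysisR Crest.AnalysisR.TreePotential

/-- The path sum of coordinate vectors. -/
noncomputable def pathVec (m : PotentialModel) : List ℕ → Amb m
  | [] => coordVector m []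
  | a :: v => pathVec m v + coordVector m (a :: v)

theorem ev_pathVec {m : PotentialModel} (h : PotentialTest m) (s : List ℕ) :
    ev h (pathVec m s) = pathPotential h.1 s := by
  induction s with
  | nil => rfl
  | cons a v ih =>
    rw [pathVec, map_add, ih, ev_coord]
    rfl

theorem norm_pathVec_le (m : PotentialModel) (s : List ℕ) : ‖pathVec m s‖ ≤ 1 := by
  refine norm_le_of_ev _ fun f => ?_
  rw [ev_pathVec]
  exact f.2.1 s

theorem one_le_norm_coord {m : PotentialModel} {s : List ℕ}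
    (hs : m = .rootlessSibling → s ≠ []) : 1 ≤ ‖coordVector m s‖ := by
  have h1 := abs_ev_le (deltaTest m s) (coordVector m s)
  rw [ev_coord] at h1
  have h2 : (deltaTest m s).1 s = 1 := deltaFun_apply_self hs
  rw [h2] at h1
  simpa using h1

theorem one_le_norm_pathVec {m : PotentialModel} {s : List ℕ}
    (hs : m = .rootlessSibling → s ≠ []) : 1 ≤ ‖pathVec m s‖ := by
  have h1 := abs_ev_le (deltaTest m s) (pathVec m s)
  rw [ev_pathVec] at h1
  have h2 : pathPotential (deltaTest m s).1 s = 1 := by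
    show pathPotential (deltaFun m s) s = 1
    rw [deltaFun_pos hs, pathPotential_single, if_pos (List.suffix_refl _)]
  rw [h2] at h1
  simpa using h1

theorem coordVector_mem (m : PotentialModel) (s : List ℕ) : coordVector m s ∈ modelSpace m :=
  Submodule.le_topologicalClosure _ (Submodule.subset_span ⟨s, rfl⟩)

theorem pathVec_mem (m : PotentialModel) (s : List ℕ) : pathVec m s ∈ modelSpace m := by
  induction s with
  | nil => exact coordVector_mem m []
  | cons a v ih => exact Submodule.add_mem _ ih (coordVector_mem m _)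

/-- upper `ℓ²` estimate for children. -/
theorem l2_upper_children (m : PotentialModel) (r : List ℕ) (A : Finset ℕ) (ε : ℕ → ℝ)
    (hε : ∀ n, |ε n| ≤ 1) :
    ‖∑ n ∈ A, ε n • coordVector m (n :: r)‖ ≤ 1 * Real.sqrt A.card := by
  rw [one_mul]
  refine norm_le_of_ev _ fun f => ?_
  rw [map_sum]
  simp only [map_smul, ev_coord, smul_eq_mul]
  have h1 : ∑ n ∈ A, f.1 (n :: r) ^ 2 ≤ 1 := extra_children f.2.2 r A
  have h2 : ∑ n ∈ A, ε n ^ 2 ≤ A.card := by
    have : ∀ n ∈ A, ε n ^ 2 ≤ (1 : ℝ) := by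
      intro n _
      have := hε n
      rw [← sq_abs]
      exact pow_le_one₀ (abs_nonneg _) this
    calc ∑ n ∈ A, ε n ^ 2 ≤ A.card • (1 : ℝ) := Finset.sum_le_card_nsmul A _ 1 this
      _ = A.card := by simp
  have h3 := Finset.sum_mul_sq_le_sq_mul_sq A ε (fun n => f.1 (n :: r))
  have h4 : (∑ n ∈ A, ε n * f.1 (n :: r)) ^ 2 ≤ A.card := by
    have h5 : (∑ n ∈ A, ε n ^ 2) * ∑ n ∈ A, f.1 (n :: r) ^ 2 ≤ A.card * 1 :=
      mul_le_mul h2 h1 (Finset.sum_nonneg fun _ _ => sq_nonneg _) (by positivity)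
    linarith
  exact Real.abs_le_sqrt h4

/-- No equivalent AUC norm on a model space. -/
theorem not_isAUC_model (m : PotentialModel) (N : (modelBanach m).X → ℝ)
    (hN : (modelBanach m).IsEquivNorm N) : ¬ (modelBanach m).IsAUC N := by
  let vec : List ℕ → modelSpace m := fun s => ⟨pathVec m s, pathVec_mem m s⟩
  let co : List ℕ → modelSpace m := fun s => ⟨coordVector m s, coordVector_mem m s⟩
  refine not_isAUC_of_tree (X := modelSpace m)
    (Submodule.isClosed_topologicalClosure _).completeSpace_coe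
    (fun _ => Set.range vec) 1 1 1 one_pos one_pos ?_ ?_ ?_ N hN
  · rintro _ _ ⟨s, rfl⟩
    exact norm_pathVec_le m s
  · intro _
    exact ⟨vec [0], ⟨[0], rfl⟩, one_le_norm_pathVec (by simp)⟩
  · rintro _ _ ⟨s, rfl⟩ S hS hfd η hη
    obtain ⟨n₀, hn₀⟩ := eventually_near_of_l2_upper (X := modelSpace m) (fun n => co (n :: s)) 1 (by
      intro A ε hε
      have h1 := l2_upper_children m s A ε hε
      have h2 : ((∑ n ∈ A, ε n • co (n :: s) : modelSpace m) : Amb m) =
          ∑ n ∈ A, ε n • coordVector m (n :: s) := by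
        push_cast
        rfl
      show ‖((∑ n ∈ A, ε n • co (n :: s) : modelSpace m) : Amb m)‖ ≤ _
      rw [h2]; exact h1) S hS hfd η hη
    obtain ⟨y, hy, hle⟩ := hn₀ n₀ le_rfl
    have hdiff : vec (n₀ :: s) - vec s = co (n₀ :: s) := by
      apply Subtype.ext
      show pathVec m (n₀ :: s) - pathVec m s = coordVector m (n₀ :: s)
      rw [pathVec]; abel
    refine ⟨vec (n₀ :: s), ⟨_, rfl⟩, y, hy, ?_, ?_⟩
    · rw [hdiff]
      exact one_le_norm_coord (by simp)
    · rw [hdiff]; exact hle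

theorem separable_modelSpace (m : PotentialModel) :
    TopologicalSpace.SeparableSpace (modelSpace m) := by
  have h1 : TopologicalSpace.IsSeparable (Set.range (coordVector m)) :=
    (Set.countable_range _).isSeparable
  have h2 : TopologicalSpace.IsSeparable
      (Submodule.span ℝ (Set.range (coordVector m)) : Set (Amb m)) := h1.span
  have h3 : TopologicalSpace.IsSeparable (modelSpace m : Set (Amb m)) := h2.closure
  exact h3.separableSpace

end Crest.Agent.R125.Pot
private theorem rz_5e8f8905ee : type_of% @_root_.Crest.Agent.R125.Pot.pathVec.eq_def := @_root_.Crest.Agent.R125.Pot.pathVec.eq_def -- L17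
private theorem rz_9be30a568d : type_of% @_root_.Crest.Agent.R125.Pot.pathVec.eq_1 := @_root_.Crest.Agent.R125.Pot.pathVec.eq_1 -- L17
end

-- ▼ part R125/Moduli

/-!
Asymptotic moduli from property (M) (result 125).
-/

set_option autoImplicit false

namespace Crest.Agent.R125

open Crest.AnalysisR

/-- Property (M) gives the averaged midpoint modulus `√(1+t²/4) - 1`. -/
theorem midpointModulusGE_of_propM {X : Type} [nX : NormedAddCommGroup X] [sX : NormedSpace ℝ X]
    (cX : CompleteSpace X) (hM : PropM X) (t c : ℝ) (ht : 0 < t)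
    (hc : c ≤ Real.sqrt (1 + t ^ 2 / 4) - 1) :
    (RealBanach.mk X nX sX cX).MidpointModulusGE (RealBanach.mk X nX sX cX).norm t c := by
  intro x hx η hη
  have hx1 : ‖x‖ = 1 := hx
  obtain ⟨S, hScl, hSfd, hS⟩ := hM x (2 * η) (by positivity)
  refine ⟨(S : Set X), ⟨S, rfl, hScl, hSfd⟩, fun y hy hy1 => ?_⟩
  have hyn : ‖y‖ = 1 := hy1
  have h1 := hS (t • y) (S.smul_mem t hy)
  rw [norm_smul, hyn, Real.norm_eq_abs, abs_of_pos ht, hx1, mul_one, one_pow] at h1
  show c - η ≤ (‖x + t • y‖ + ‖x - t • y‖) / 2 - 1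
  linarith

/-- Property (M) gives the max-based midpoint modulus `√(1+t²/4) - 1`. -/
theorem maxMidpointModulusGE_of_propM {X : Type} [nX : NormedAddCommGroup X]
    [sX : NormedSpace ℝ X] (cX : CompleteSpace X) (hM : PropM X) (t c : ℝ) (ht : 0 < t)
    (hc : c ≤ Real.sqrt (1 + t ^ 2 / 4) - 1) :
    (RealBanach.mk X nX sX cX).MaxMidpointModulusGE (RealBanach.mk X nX sX cX).norm t c := by
  intro x hx η hη
  have hx1 : ‖x‖ = 1 := hx
  obtain ⟨S, hScl, hSfd, hS⟩ := hM x (2 * η) (by positivity)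
  refine ⟨(S : Set X), ⟨S, rfl, hScl, hSfd⟩, fun y hy hy1 => ?_⟩
  have hyn : ‖y‖ = 1 := hy1
  have h1 := hS (t • y) (S.smul_mem t hy)
  rw [norm_smul, hyn, Real.norm_eq_abs, abs_of_pos ht, hx1, mul_one, one_pow] at h1
  show c - η ≤ max (‖x + t • y‖) (‖x - t • y‖) - 1
  have h2 := le_max_left (‖x + t • y‖) (‖x - t • y‖)
  have h3 := le_max_right (‖x + t • y‖) (‖x - t • y‖)
  linarith

/-- Property (M) passes to subspaces (through a linear isometric embedding). -/
theorem propM_of_isometry {X Y : Type*} [NormedAddCommGroup X] [NormedSpace ℝ X]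
    [NormedAddCommGroup Y] [NormedSpace ℝ Y] (T : Y →ₗᵢ[ℝ] X) (hM : PropM X) : PropM Y := by
  intro x ε hε
  obtain ⟨S, hScl, hSfd, hS⟩ := hM (T x) ε hε
  refine ⟨S.comap T.toLinearMap, ?_, ?_, fun y hy => ?_⟩
  · exact hScl.preimage T.continuous
  · have := hSfd
    let Q : (Y ⧸ S.comap T.toLinearMap) →ₗ[ℝ] (X ⧸ S) :=
      Submodule.mapQ (S.comap T.toLinearMap) S T.toLinearMap le_rfl
    have hQ : Function.Injective Q := by
      rw [← LinearMap.ker_eq_bot]
      rw [Submodule.ker_mapQ]
      simp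
    exact FiniteDimensional.of_injective Q hQ
  · have h1 := hS (T y) hy
    rw [← map_add, ← map_sub, T.norm_map, T.norm_map, T.norm_map, T.norm_map] at h1
    exact h1

end Crest.Agent.R125
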