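import Crest.Agent.R125.Prop
import Mathlib
import Crest.Prelude.Def_TreePotentials
import Crest.Agent.R125.Core
import Crest.Agent.R125.Moduli_Mg

-- ▼ part R125/Reflexive
section

/-!
Task B of rid 125: reflexivity is invariant under isomorphism, Hilbert spaces are reflexive, and
`ℓ₂`-sums of reflexive spaces are reflexive.
-/

set_option autoImplicit false

namespace Crest.Agent.R125

open Filter Topology

theorem reflexive_of_equiv {X Y : Type*} [NormedAddCommGroup X] [NormedSpace ℝ X]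
    [NormedAddCommGroup Y] [NormedSpace ℝ Y] (e : X ≃L[ℝ] Y) (h : Reflexive X) :
    Reflexive Y := by
  intro Ψ
  let T : (X →L[ℝ] ℝ) →L[ℝ] (Y →L[ℝ] ℝ) :=
    (ContinuousLinearMap.compL ℝ Y X ℝ).flip (e.symm : Y →L[ℝ] X)
  obtain ⟨x, hx⟩ := h (Ψ.comp T)
  refine ⟨e x, ?_⟩
  ext ψ
  have h1 : T (ψ.comp (e : X →L[ℝ] Y)) = ψ := by
    ext y
    simp [T]
  have h2 := congrArg (fun Φ => Φ (ψ.comp (e : X →L[ℝ] Y))) hx
  simp only [NormedSpace.dual_def, ContinuousLinearMap.comp_apply, h1] at h2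
  rw [NormedSpace.dual_def]
  simpa using h2

theorem reflexive_of_hilbert {H : Type*} [NormedAddCommGroup H] [InnerProductSpace ℝ H]
    [CompleteSpace H] : Reflexive H := by
  intro Φ
  let T : H →L[ℝ] (H →L[ℝ] ℝ) := innerSL ℝ
  obtain ⟨x, hx⟩ := (InnerProductSpace.toDual ℝ H).surjective (Φ.comp T)
  refine ⟨x, ?_⟩
  ext φ
  obtain ⟨v, rfl⟩ := (InnerProductSpace.toDual ℝ H).surjective φ
  have h2 := congrArg (fun Φ => Φ v) hx
  simp only [ContinuousLinearMap.comp_apply] at h2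
  rw [NormedSpace.dual_def]
  have h3 : T v = (InnerProductSpace.toDual ℝ H) v := by
    ext w
    rfl
  rw [h3] at h2
  rw [← h2]
  simp [InnerProductSpace.toDual_apply_apply, real_inner_comm]

section lpsum

variable {X : ℕ → Type*} [∀ n, NormedAddCommGroup (X n)] [∀ n, NormedSpace ℝ (X n)]

theorem two_toReal_pos : 0 < (2 : ENNReal).toReal := by norm_num

/-- coordinate projection -/
noncomputable abbrev prj (X : ℕ → Type*) [∀ n, NormedAddCommGroup (X n)]
    [∀ n, NormedSpace ℝ (X n)] (n : ℕ) : lp X 2 →L[ℝ] X n := lp.evalCLM ℝ X 2 n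

/-- coordinate inclusion -/
noncomputable abbrev inc (X : ℕ → Type*) [∀ n, NormedAddCommGroup (X n)]
    [∀ n, NormedSpace ℝ (X n)] (n : ℕ) : X n →L[ℝ] lp X 2 :=
  lp.singleContinuousLinearMap ℝ X 2 n



omit [∀ n, NormedSpace ℝ (X n)] in
/-- partial sums of squares are bounded by the norm squared -/
theorem sum_sq_le (z : lp X 2) (A : Finset ℕ) : ∑ n ∈ A, ‖z n‖ ^ 2 ≤ ‖z‖ ^ 2 := by
  have := lp.sum_rpow_le_norm_rpow (p := 2) two_toReal_pos z A
  simpa using this

/-- norm of a finite sum of single vectors -/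
theorem norm_sum_inc (A : Finset ℕ) (z : ∀ n, X n) :
    ‖∑ n ∈ A, inc X n (z n)‖ = Real.sqrt (∑ n ∈ A, ‖z n‖ ^ 2) := by
  have := lp.norm_sum_single (p := 2) two_toReal_pos z A
  have h2 : ‖∑ n ∈ A, inc X n (z n)‖ ^ 2 = ∑ n ∈ A, ‖z n‖ ^ 2 := by
    simpa using this
  rw [← h2, Real.sqrt_sq (norm_nonneg _)]

theorem hasSum_inc (z : lp X 2) : HasSum (fun n => inc X n (z n)) z :=
  lp.hasSum_single (by norm_num) z

/-- Cauchy-Schwarz for a finite family of functionals. -/
theorem sum_apply_le (A : Finset ℕ) (φ : ∀ n, X n →L[ℝ] ℝ) (z : lp X 2) :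
    |∑ n ∈ A, φ n (z n)| ≤ Real.sqrt (∑ n ∈ A, ‖φ n‖ ^ 2) * ‖z‖ := by
  calc |∑ n ∈ A, φ n (z n)| ≤ ∑ n ∈ A, |φ n (z n)| := Finset.abs_sum_le_sum_abs _ _
    _ ≤ ∑ n ∈ A, ‖φ n‖ * ‖z n‖ := Finset.sum_le_sum fun n _ => (φ n).le_opNorm _
    _ ≤ Real.sqrt (∑ n ∈ A, ‖φ n‖ ^ 2) * Real.sqrt (∑ n ∈ A, ‖z n‖ ^ 2) :=
      Real.sum_mul_le_sqrt_mul_sqrt _ _ _
    _ ≤ Real.sqrt (∑ n ∈ A, ‖φ n‖ ^ 2) * ‖z‖ := by
      refine mul_le_mul_of_nonneg_left ?_ (Real.sqrt_nonneg _)
      rw [← Real.sqrt_sq (norm_nonneg z)]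
      exact Real.sqrt_le_sqrt (sum_sq_le z A)

theorem le_sq_of_le_mul_sqrt {S K : ℝ} (hS : 0 ≤ S) (_hK : 0 ≤ K) (h : S ≤ K * Real.sqrt S) :
    S ≤ K ^ 2 := by
  by_cases hz : Real.sqrt S = 0
  · have : S = 0 := (Real.sqrt_eq_zero hS).1 hz
    rw [this]; positivity
  · have hpos : 0 < Real.sqrt S := lt_of_le_of_ne (Real.sqrt_nonneg _) (Ne.symm hz)
    have h3 : Real.sqrt S * Real.sqrt S ≤ K * Real.sqrt S := by
      rw [Real.mul_self_sqrt hS]; exact h
    have h4 : Real.sqrt S ≤ K := le_of_mul_le_mul_right h3 hpos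
    calc S = Real.sqrt S ^ 2 := (Real.sq_sqrt hS).symm
      _ ≤ K ^ 2 := pow_le_pow_left₀ (Real.sqrt_nonneg _) h4 2

/-- The restrictions of a functional to the summands have square-summable norms. -/
theorem sum_norm_sq_le (φ : lp X 2 →L[ℝ] ℝ) (A : Finset ℕ) :
    ∑ n ∈ A, ‖φ.comp (inc X n)‖ ^ 2 ≤ 4 * ‖φ‖ ^ 2 := by
  have hz : ∀ n, ∃ z : X n, ‖z‖ ≤ 1 ∧ ‖φ.comp (inc X n)‖ / 2 ≤ |φ (inc X n z)| := by
    intro n
    by_cases h0 : ‖φ.comp (inc X n)‖ = 0
    · exact ⟨0, by simp, by rw [h0]; simp⟩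
    · have hpos : 0 < ‖φ.comp (inc X n)‖ := lt_of_le_of_ne (norm_nonneg _) (Ne.symm h0)
      obtain ⟨z, hz1, hz2⟩ := (φ.comp (inc X n)).exists_lt_apply_of_lt_opNorm
        (show ‖φ.comp (inc X n)‖ / 2 < ‖φ.comp (inc X n)‖ by linarith)
      exact ⟨z, hz1.le, hz2.le⟩
  choose z hz1 hz2 using hz
  set c : ℕ → ℝ := fun n => φ (inc X n (z n)) with hc
  set S := ∑ n ∈ A, (c n) ^ 2 with hS
  have hS0 : 0 ≤ S := Finset.sum_nonneg fun _ _ => sq_nonneg _
  have h1 : S = φ (∑ n ∈ A, inc X n (c n • z n)) := by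
    rw [map_sum, hS]
    refine Finset.sum_congr rfl fun n _ => ?_
    rw [map_smul, map_smul, smul_eq_mul, sq]
  have h2 : S ≤ ‖φ‖ * Real.sqrt S := by
    calc S = φ (∑ n ∈ A, inc X n (c n • z n)) := h1
      _ ≤ ‖φ (∑ n ∈ A, inc X n (c n • z n))‖ := le_abs_self _
      _ ≤ ‖φ‖ * ‖∑ n ∈ A, inc X n (c n • z n)‖ := φ.le_opNorm _
      _ ≤ ‖φ‖ * Real.sqrt S := by
        refine mul_le_mul_of_nonneg_left ?_ (norm_nonneg _)
        rw [norm_sum_inc]
        refine Real.sqrt_le_sqrt (Finset.sum_le_sum fun n _ => ?_)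
        rw [norm_smul, mul_pow, Real.norm_eq_abs, sq_abs]
        have : ‖z n‖ ^ 2 ≤ 1 := by
          have := pow_le_pow_left₀ (norm_nonneg _) (hz1 n) 2
          simpa using this
        nlinarith [sq_nonneg (c n)]
  have h3 := le_sq_of_le_mul_sqrt hS0 (norm_nonneg _) h2
  have h4 : ∑ n ∈ A, ‖φ.comp (inc X n)‖ ^ 2 ≤ 4 * S := by
    rw [hS, Finset.mul_sum]
    refine Finset.sum_le_sum fun n _ => ?_
    have h5 : (‖φ.comp (inc X n)‖ / 2) ^ 2 ≤ |c n| ^ 2 :=
      pow_le_pow_left₀ (by positivity) (hz2 n) 2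
    rw [sq_abs] at h5
    nlinarith
  linarith

/-- A functional is approximated in norm by its finitely supported parts. -/
theorem exists_finset_approx (φ : lp X 2 →L[ℝ] ℝ) (ε : ℝ) (hε : 0 < ε) :
    ∃ A : Finset ℕ, ‖φ - ∑ n ∈ A, (φ.comp (inc X n)).comp (prj X n)‖ ≤ ε := by
  have hsum : Summable (fun n => ‖φ.comp (inc X n)‖ ^ 2) :=
    summable_of_sum_le (fun n => sq_nonneg _) (sum_norm_sq_le φ)
  obtain ⟨A, hA⟩ := summable_iff_vanishing_norm.1 hsum (ε ^ 2) (by positivity)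
  refine ⟨A, ?_⟩
  refine ContinuousLinearMap.opNorm_le_bound _ hε.le fun z => ?_
  have hz : HasSum (fun n => φ (inc X n (z n))) (φ z) := φ.hasSum (hasSum_inc z)
  have hlim : Tendsto (fun B : Finset ℕ => |∑ n ∈ B, φ (inc X n (z n)) -
      ∑ n ∈ A, φ (inc X n (z n))|) atTop
      (𝓝 |φ z - ∑ n ∈ A, φ (inc X n (z n))|) :=
    (hz.sub_const _).abs
  have h1 : (φ - ∑ n ∈ A, (φ.comp (inc X n)).comp (prj X n)) z =
      φ z - ∑ n ∈ A, φ (inc X n (z n)) := by
    rw [sub_apply, sum_apply]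
    rfl
  rw [h1, Real.norm_eq_abs]
  refine le_of_tendsto hlim ?_
  filter_upwards [eventually_ge_atTop A] with B hB
  have h2 : ∑ n ∈ B, φ (inc X n (z n)) - ∑ n ∈ A, φ (inc X n (z n)) =
      ∑ n ∈ B \ A, (φ.comp (inc X n)) (z n) := by
    rw [← Finset.sum_sdiff hB]
    simp
  rw [h2]
  refine (sum_apply_le (B \ A) (fun n => φ.comp (inc X n)) z).trans ?_
  refine mul_le_mul_of_nonneg_right ?_ (norm_nonneg _)
  have h3 := hA (B \ A) Finset.sdiff_disjoint
  rw [Real.norm_eq_abs] at h3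
  have h4 : ∑ n ∈ B \ A, ‖φ.comp (inc X n)‖ ^ 2 ≤ ε ^ 2 := (le_abs_self _).trans h3.le
  calc Real.sqrt (∑ n ∈ B \ A, ‖φ.comp (inc X n)‖ ^ 2) ≤ Real.sqrt (ε ^ 2) :=
        Real.sqrt_le_sqrt h4
    _ = ε := Real.sqrt_sq hε.le

end lpsum

theorem reflexive_lp_two (X : ℕ → Type*) [∀ n, NormedAddCommGroup (X n)]
    [∀ n, NormedSpace ℝ (X n)] (h : ∀ n, Reflexive (X n)) :
    Reflexive (lp X 2) := by
  intro Φ
  -- transpose of the projections
  let T : ∀ n, (X n →L[ℝ] ℝ) →L[ℝ] (lp X 2 →L[ℝ] ℝ) := fun n =>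
    (ContinuousLinearMap.compL ℝ (lp X 2) (X n) ℝ).flip (prj X n)
  have hT : ∀ n (ψ : X n →L[ℝ] ℝ), T n ψ = ψ.comp (prj X n) := fun n ψ => rfl
  have hx : ∀ n, ∃ x : X n, NormedSpace.inclusionInDoubleDual ℝ (X n) x = Φ.comp (T n) :=
    fun n => h n (Φ.comp (T n))
  choose x hx using hx
  have hx' : ∀ n (ψ : X n →L[ℝ] ℝ), ψ (x n) = Φ (ψ.comp (prj X n)) := by
    intro n ψ
    have := congrArg (fun Ψ => Ψ ψ) (hx n)
    simp only [NormedSpace.dual_def, ContinuousLinearMap.comp_apply, hT] at this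
    exact this
  have hbound : ∀ A : Finset ℕ, ∑ n ∈ A, ‖x n‖ ^ 2 ≤ ‖Φ‖ ^ 2 := by
    intro A
    choose g hg1 hg2 using fun n => exists_dual_vector'' ℝ (x n)
    set S := ∑ n ∈ A, ‖x n‖ ^ 2 with hS
    have hS0 : 0 ≤ S := Finset.sum_nonneg fun _ _ => sq_nonneg _
    set φ : lp X 2 →L[ℝ] ℝ := ∑ n ∈ A, (‖x n‖ • g n).comp (prj X n) with hφ
    have hφn : ‖φ‖ ≤ Real.sqrt S := by
      refine ContinuousLinearMap.opNorm_le_bound _ (Real.sqrt_nonneg _) fun z => ?_
      have h1 : φ z = ∑ n ∈ A, (‖x n‖ • g n) (z n) := by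
        rw [hφ, sum_apply]
        rfl
      rw [h1, Real.norm_eq_abs]
      refine (sum_apply_le A (fun n => ‖x n‖ • g n) z).trans ?_
      refine mul_le_mul_of_nonneg_right (Real.sqrt_le_sqrt ?_) (norm_nonneg _)
      refine Finset.sum_le_sum fun n _ => ?_
      refine pow_le_pow_left₀ (norm_nonneg _) ?_ 2
      rw [norm_smul, norm_norm]
      exact mul_le_of_le_one_right (norm_nonneg _) (hg1 n)
    have h2 : Φ φ = S := by
      rw [hφ, map_sum, hS]
      refine Finset.sum_congr rfl fun n _ => ?_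
      rw [← hx' n]
      have : g n (x n) = ‖x n‖ := by simpa using hg2 n
      simp [this, sq]
    have h3 : S ≤ ‖Φ‖ * Real.sqrt S := by
      calc S = Φ φ := h2.symm
        _ ≤ ‖Φ φ‖ := le_abs_self _
        _ ≤ ‖Φ‖ * ‖φ‖ := Φ.le_opNorm _
        _ ≤ ‖Φ‖ * Real.sqrt S := by gcongr
    exact le_sq_of_le_mul_sqrt hS0 (ContinuousLinearMap.opNorm_nonneg Φ) h3
  have hmem : Memℓp x 2 := by
    refine memℓp_gen' (C := ‖Φ‖ ^ 2) fun A => ?_
    simpa using hbound A
  let xx : lp X 2 := ⟨x, hmem⟩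
  refine ⟨xx, ?_⟩
  ext φ
  rw [NormedSpace.dual_def]
  refine eq_of_forall_dist_le fun ε hε => ?_
  set δ := ε / (‖Φ‖ + ‖xx‖ + 1) with hδ
  have hden : 0 < ‖Φ‖ + ‖xx‖ + 1 := by positivity
  have hδ0 : 0 < δ := by positivity
  obtain ⟨A, hA⟩ := exists_finset_approx φ δ hδ0
  set ψ := ∑ n ∈ A, (φ.comp (inc X n)).comp (prj X n) with hψ
  have h1 : ψ xx = Φ ψ := by
    rw [hψ, map_sum, sum_apply]
    refine Finset.sum_congr rfl fun n _ => ?_
    rw [← hx' n]
    rfl
  have h2 : |φ xx - ψ xx| ≤ δ * ‖xx‖ := by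
    have := (φ - ψ).le_opNorm xx
    rw [Real.norm_eq_abs, sub_apply] at this
    exact this.trans (mul_le_mul_of_nonneg_right hA (norm_nonneg _))
  have h3 : |Φ φ - Φ ψ| ≤ ‖Φ‖ * δ := by
    have := Φ.le_opNorm (φ - ψ)
    rw [map_sub, Real.norm_eq_abs] at this
    exact this.trans (mul_le_mul_of_nonneg_left hA (norm_nonneg _))
  rw [Real.dist_eq]
  have h4 : φ xx - Φ φ = (φ xx - ψ xx) - (Φ φ - Φ ψ) := by rw [h1]; ring
  rw [h4]
  calc |(φ xx - ψ xx) - (Φ φ - Φ ψ)| ≤ |φ xx - ψ xx| + |Φ φ - Φ ψ| := abs_sub _ _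
    _ ≤ δ * ‖xx‖ + ‖Φ‖ * δ := add_le_add h2 h3
    _ ≤ δ * (‖Φ‖ + ‖xx‖ + 1) := by nlinarith
    _ = ε := by rw [hδ]; field_simp

end Crest.Agent.R125
end

-- ▼ part R125/Depth
section

/-!
The finite-depth pieces of the global bounded-potential model (result 125, S0166).
-/

set_option autoImplicit false

namespace Crest.Agent.R125.Depth

open Crest.AnalysisR Crest.AnalysisR.TreePotential Crest.Agent.R125 Crest.Agent.R125.Pot

/-- the global model -/
abbrev gm : PotentialModel := PotentialModel.global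

/-- vertices of depth at most `n` -/
abbrev V (n : ℕ) := {s : List ℕ // s.length ≤ n}

/-- the Hilbert space on the vertices of depth at most `n` -/
abbrev H (n : ℕ) := lp (fun _ : V n => ℝ) 2

open scoped Classical in
/-- suffixes as a finset -/
noncomputable def suf (s : List ℕ) : Finset (List ℕ) := s.tails.toFinset

theorem mem_suf {s u : List ℕ} : u ∈ suf s ↔ u <:+ s := by
  simp [suf]

theorem pathPotential_eq_sum (f : List ℕ → ℝ) (s : List ℕ) :
    pathPotential f s = ∑ u ∈ suf s, f u := by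
  classical
  induction s with
  | nil => simp [pathPotential, suf]
  | cons a v ih =>
    have h1 : suf (a :: v) = insert (a :: v) (suf v) := by
      ext u
      rw [mem_suf, Finset.mem_insert, mem_suf, List.suffix_cons_iff]
    have h2 : (a :: v) ∉ suf v := by
      rw [mem_suf]
      intro h
      have := h.length_le
      simp at this
    rw [h1, Finset.sum_insert h2, pathPotential, ih, add_comm]

theorem pathPotential_sq_le {n : ℕ} {K : ℝ} (f : List ℕ → ℝ)
    (h0 : ∀ s : List ℕ, n < s.length → f s = 0)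
    (hK : ∀ A : Finset (List ℕ), ∑ u ∈ A, f u ^ 2 ≤ K) (s : List ℕ) :
    pathPotential f s ^ 2 ≤ (n + 1) * K := by
  classical
  have hK0 : 0 ≤ K := by simpa using hK ∅
  set B : Finset (List ℕ) := (suf s).filter (fun u => u.length ≤ n) with hB
  have h1 : pathPotential f s = ∑ u ∈ B, f u := by
    rw [pathPotential_eq_sum, hB, Finset.sum_filter]
    refine Finset.sum_congr rfl fun u _ => ?_
    split_ifs with h
    · rfl
    · exact h0 u (by omega)
  have h2 : B.card ≤ n + 1 := by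
    have h3 : B.card ≤ (Finset.range (n + 1)).card := by
      refine Finset.card_le_card_of_injOn List.length ?_ ?_
      · intro u hu
        have hu' : u ∈ B := hu
        rw [hB, Finset.mem_filter] at hu'
        simp only [Finset.coe_range, Set.mem_Iio]
        omega
      · intro u hu v hv huv
        have hu' : u ∈ B := hu
        have hv' : v ∈ B := hv
        rw [hB, Finset.mem_filter, mem_suf] at hu' hv'
        exact (List.suffix_of_suffix_length_le hu'.1 hv'.1 huv.le).eq_of_length huv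
    simpa using h3
  rw [h1]
  have h4 := sq_sum_le_card_mul_sum_sq (s := B) (f := f)
  have h5 : (B.card : ℝ) ≤ n + 1 := by exact_mod_cast h2
  calc (∑ u ∈ B, f u) ^ 2 ≤ B.card * ∑ u ∈ B, f u ^ 2 := h4
    _ ≤ (n + 1) * K := mul_le_mul h5 (hK B) (Finset.sum_nonneg fun _ _ => sq_nonneg _)
        (by positivity)

/-- restriction of a test to the vertices of depth at most `n` -/
noncomputable def restr (n : ℕ) (f : PotentialTest gm) : H n :=
  ⟨fun s => f.1 s.1, by
    refine memℓp_gen' (C := 1) fun A => ?_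
    have h := f.2.2 (A.map ⟨Subtype.val, Subtype.val_injective⟩)
    rw [Finset.sum_map] at h
    simpa using h⟩

theorem restr_apply (n : ℕ) (f : PotentialTest gm) (s : V n) : restr n f s = f.1 s.1 := rfl

theorem norm_restr_le (n : ℕ) (f : PotentialTest gm) : ‖restr n f‖ ≤ 1 := by
  refine lp.norm_le_of_forall_sum_le (by norm_num) zero_le_one fun A => ?_
  have h := f.2.2 (A.map ⟨Subtype.val, Subtype.val_injective⟩)
  rw [Finset.sum_map] at h
  simpa [restr_apply] using h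

theorem abs_inner_restr_le (n : ℕ) (f : PotentialTest gm) (x : H n) :
    |inner ℝ (restr n f) x| ≤ ‖x‖ := by
  refine (abs_real_inner_le_norm _ _).trans ?_
  calc ‖restr n f‖ * ‖x‖ ≤ 1 * ‖x‖ :=
        mul_le_mul_of_nonneg_right (norm_restr_le n f) (norm_nonneg _)
    _ = ‖x‖ := one_mul _

/-- the embedding of the Hilbert space into the ambient space, as a linear map -/
noncomputable def lamLin (n : ℕ) : H n →ₗ[ℝ] Amb gm where
  toFun x := ⟨fun f => inner ℝ (restr n f) x, memℓp_infty ⟨‖x‖, by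
    rintro _ ⟨f, rfl⟩
    exact abs_inner_restr_le n f x⟩⟩
  map_add' x y := by
    ext f
    exact inner_add_right _ _ _
  map_smul' c x := by
    ext f
    exact inner_smul_right _ _ _

/-- the embedding of the Hilbert space into the ambient space -/
noncomputable def lam (n : ℕ) : H n →L[ℝ] Amb gm :=
  (lamLin n).mkContinuous 1 fun x => by
    rw [one_mul]
    exact lp.norm_le_of_forall_le' _ fun f => abs_inner_restr_le n f x

theorem ev_lam (n : ℕ) (f : PotentialTest gm) (x : H n) :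
    ev f (lam n x) = inner ℝ (restr n f) x := rfl

open scoped Classical in
theorem lam_single (n : ℕ) (s : V n) :
    lam n (lp.single 2 s (1 : ℝ)) = coordVector gm s.1 := by
  ext f
  show inner ℝ (restr n f) (lp.single 2 s (1 : ℝ)) = f.1 s.1
  rw [lp.inner_single_right]
  simp [restr_apply]

theorem lam_mem (n : ℕ) (x : H n) : lam n x ∈ modelSpace gm := by
  classical
  have h1 : HasSum (fun s : V n => lp.single 2 s (x s)) x := lp.hasSum_single (by norm_num) x
  have h2 : HasSum (fun s : V n => lam n (lp.single 2 s (x s))) (lam n x) :=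
    h1.mapL (lam n)
  refine (Submodule.isClosed_topologicalClosure _).mem_of_tendsto h2 ?_
  refine Filter.Eventually.of_forall fun A => ?_
  refine Submodule.sum_mem _ fun s _ => ?_
  have h3 : lp.single 2 s (x s) = (x s) • (lp.single 2 s (1 : ℝ) : H n) := by
    rw [← lp.single_smul]
    simp
  rw [h3, map_smul, lam_single]
  exact Submodule.smul_mem _ _ (coordVector_mem gm s.1)

/-- lower bound for the embedding -/
theorem norm_le_lam (n : ℕ) (x : H n) : ‖x‖ ≤ Real.sqrt (n + 1) * ‖lam n x‖ := by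
  classical
  rcases (norm_nonneg x).eq_or_lt with h0 | hpos
  · rw [← h0]; positivity
  have hs : 0 < Real.sqrt ((n : ℝ) + 1) := Real.sqrt_pos.mpr (by positivity)
  have hss : Real.sqrt ((n : ℝ) + 1) ^ 2 = n + 1 := Real.sq_sqrt (by positivity)
  set r : ℝ := (‖x‖ * Real.sqrt ((n : ℝ) + 1))⁻¹ with hr
  have hrpos : 0 < r := by positivity
  have hr2 : r ^ 2 * ‖x‖ ^ 2 * (n + 1) = 1 := by
    rw [hr, inv_pow, mul_pow, hss]
    field_simp
  let f : List ℕ → ℝ := fun s => if h : s.length ≤ n then r * x ⟨s, h⟩ else 0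
  have hf0 : ∀ s : List ℕ, n < s.length → f s = 0 := by
    intro s hs
    exact dif_neg (by omega)
  have hsumx : ∀ B : Finset (V n), ∑ s ∈ B, (x s) ^ 2 ≤ ‖x‖ ^ 2 := by
    intro B
    have := lp.sum_rpow_le_norm_rpow (p := 2) (by norm_num) x B
    simpa using this
  have hfK : ∀ A : Finset (List ℕ), ∑ u ∈ A, f u ^ 2 ≤ r ^ 2 * ‖x‖ ^ 2 := by
    intro A
    have h1 : ∑ u ∈ A, f u ^ 2 = ∑ s ∈ A.subtype (fun s : List ℕ => s.length ≤ n), r ^ 2 * (x s) ^ 2 := by
      rw [← Finset.sum_filter_add_sum_filter_not A (fun s : List ℕ => s.length ≤ n)]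
      have h2 : ∑ u ∈ A with ¬ u.length ≤ n, f u ^ 2 = 0 := by
        refine Finset.sum_eq_zero fun u hu => ?_
        rw [Finset.mem_filter] at hu
        rw [hf0 u (by omega)]; simp
      rw [h2, add_zero]
      rw [← Finset.subtype_map (fun s : List ℕ => s.length ≤ n), Finset.sum_map]
      refine Finset.sum_congr rfl fun s _ => ?_
      have h3 : f s.1 = r * x s := dif_pos s.2
      show f s.1 ^ 2 = _
      rw [h3]; ring
    rw [h1, ← Finset.mul_sum]
    exact mul_le_mul_of_nonneg_left (hsumx _) (sq_nonneg _)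
  have hn1 : (0 : ℝ) < n + 1 := by positivity
  have hK1 : r ^ 2 * ‖x‖ ^ 2 ≤ 1 := by
    have h1 : r ^ 2 * ‖x‖ ^ 2 * 1 ≤ r ^ 2 * ‖x‖ ^ 2 * (n + 1) :=
      mul_le_mul_of_nonneg_left (by
        have : (0 : ℝ) ≤ n := by positivity
        linarith) (by positivity)
    linarith
  have hft : IsTest gm f := by
    refine ⟨fun s => ?_, fun A => (hfK A).trans hK1⟩
    have h1 := pathPotential_sq_le f hf0 hfK s
    have h2 : pathPotential f s ^ 2 ≤ 1 := by linarith
    rw [← sq_abs] at h2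
    exact (sq_le_one_iff₀ (abs_nonneg _)).mp h2
  let F : PotentialTest gm := ⟨f, hft⟩
  have h1 : restr n F = r • x := by
    ext s
    have h3 : f s.1 = r * x s := dif_pos s.2
    show f s.1 = _
    rw [h3]; rfl
  have h2 : ev F (lam n x) = r * ‖x‖ ^ 2 := by
    rw [ev_lam, h1, real_inner_smul_left, real_inner_self_eq_norm_sq]
  have h3 := (le_abs_self _).trans (abs_ev_le F (lam n x))
  rw [h2] at h3
  have h4 : r * ‖x‖ ^ 2 * Real.sqrt ((n : ℝ) + 1) = ‖x‖ := by
    rw [hr]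
    field_simp
  calc ‖x‖ = Real.sqrt ((n : ℝ) + 1) * (r * ‖x‖ ^ 2) := by rw [mul_comm]; exact h4.symm
    _ ≤ Real.sqrt ((n : ℝ) + 1) * ‖lam n x‖ := mul_le_mul_of_nonneg_left h3 hs.le

theorem antilip (n : ℕ) : ∃ K : NNReal, AntilipschitzWith K (lam n) :=
  ⟨⟨Real.sqrt (n + 1), Real.sqrt_nonneg _⟩,
    AddMonoidHomClass.antilipschitz_of_bound (lam n) fun x => norm_le_lam n x⟩

theorem lam_injective (n : ℕ) : Function.Injective (lam n) := by
  obtain ⟨K, hK⟩ := antilip n
  exact hK.injective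

theorem lam_isClosed_range (n : ℕ) : IsClosed (Set.range (lam n)) := by
  obtain ⟨K, hK⟩ := antilip n
  exact hK.isClosed_range (lam n).uniformContinuous

/-- the depth-`n` piece -/
noncomputable def Y (n : ℕ) : Submodule ℝ (Amb gm) := LinearMap.range (lam n : H n →ₗ[ℝ] Amb gm)


/-- the isomorphism with the Hilbert space -/
noncomputable def equivY (n : ℕ) : H n ≃L[ℝ] Y n :=
  (lam n).equivRange (lam_injective n) (lam_isClosed_range n)

theorem isClosed_Y (n : ℕ) : IsClosed (Y n : Set (Amb gm)) := by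
  have : (Y n : Set (Amb gm)) = Set.range (lam n) := by
    ext y; rfl
  rw [this]
  exact lam_isClosed_range n

instance completeSpace_Y (n : ℕ) : CompleteSpace (Y n) := (isClosed_Y n).completeSpace_coe

theorem reflexive_Y (n : ℕ) : Reflexive (Y n) :=
  reflexive_of_equiv (equivY n) reflexive_of_hilbert

theorem Y_le (n : ℕ) : Y n ≤ modelSpace gm := by
  rintro _ ⟨x, rfl⟩
  exact lam_mem n x

theorem propM_Y (n : ℕ) : PropM (Y n) :=
  propM_of_isometry (X := modelSpace gm) (Y := Y n)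
    ⟨Submodule.inclusion (Y_le n), fun _ => rfl⟩ (propM_modelSpace gm)

theorem separable_Y (n : ℕ) : TopologicalSpace.SeparableSpace (Y n) := by
  have h1 : TopologicalSpace.SeparableSpace (modelSpace gm) := separable_modelSpace gm
  have h2 : TopologicalSpace.IsSeparable (modelSpace gm : Set (Amb gm)) := by
    rw [← Subtype.range_coe (s := (modelSpace gm : Set (Amb gm)))]
    exact TopologicalSpace.isSeparable_range continuous_subtype_val
  exact (h2.mono (Y_le n)).separableSpace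

open scoped Classical in
theorem coordVector_mem_Y {n : ℕ} {s : List ℕ} (hs : s.length ≤ n) : coordVector gm s ∈ Y n :=
  ⟨lp.single 2 (⟨s, hs⟩ : V n) (1 : ℝ), lam_single n ⟨s, hs⟩⟩

theorem pathVec_mem_Y {n : ℕ} {s : List ℕ} (hs : s.length ≤ n) : pathVec gm s ∈ Y n := by
  induction s with
  | nil => exact coordVector_mem_Y hs
  | cons a v ih =>
    refine Submodule.add_mem _ (ih ?_) (coordVector_mem_Y hs)
    simp only [List.length_cons] at hs
    omega

end Crest.Agent.R125.Depth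
end

-- ▼ part R125/LpSum
section

/-!
Task C for result 125: property (M) and separability pass to `ℓ²`-sums.
-/

set_option autoImplicit false

namespace Crest.Agent.R125

open scoped ENNReal

section PropM

variable {X : ℕ → Type*} [∀ n, NormedAddCommGroup (X n)]

theorem lpsum_two_toReal_pos : 0 < (2 : ℝ≥0∞).toReal := by norm_num

theorem lp_norm_sq_hasSum (f : lp X 2) : HasSum (fun i => ‖f i‖ ^ 2) (‖f‖ ^ 2) := by
  have h := lp.hasSum_norm lpsum_two_toReal_pos f
  simpa using h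

/-- The pointwise combination `n ↦ 2 √(‖x n‖² + ‖y n‖²/4)` as an element of `ℓ²`. -/
noncomputable def comb (x y : lp X 2) : lp (fun _ : ℕ => ℝ) 2 :=
  ⟨fun n => 2 * Real.sqrt (‖x n‖ ^ 2 + ‖y n‖ ^ 2 / 4), by
    apply memℓp_gen
    have h1 := (lp_norm_sq_hasSum x).summable
    have h2 := (lp_norm_sq_hasSum y).summable
    have h3 : Summable fun n => 4 * ‖x n‖ ^ 2 + ‖y n‖ ^ 2 := (h1.mul_left 4).add h2
    refine h3.congr fun n => ?_
    have h0 : 0 ≤ ‖x n‖ ^ 2 + ‖y n‖ ^ 2 / 4 := by positivity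
    simp only [ENNReal.toReal_ofNat, Real.rpow_ofNat, Real.norm_eq_abs, sq_abs, mul_pow,
      Real.sq_sqrt h0]
    ring⟩

theorem comb_apply (x y : lp X 2) (n : ℕ) :
    comb x y n = 2 * Real.sqrt (‖x n‖ ^ 2 + ‖y n‖ ^ 2 / 4) := rfl

theorem norm_comb (x y : lp X 2) : ‖comb x y‖ = 2 * Real.sqrt (‖x‖ ^ 2 + ‖y‖ ^ 2 / 4) := by
  have h1 := lp_norm_sq_hasSum x
  have h2 := lp_norm_sq_hasSum y
  have h3 := lp_norm_sq_hasSum (comb x y)
  have h4 : HasSum (fun n => ‖comb x y n‖ ^ 2) (4 * ‖x‖ ^ 2 + ‖y‖ ^ 2) := by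
    have h := (h1.mul_left 4).add h2
    have heq : (fun n => ‖comb x y n‖ ^ 2) = fun n => 4 * ‖x n‖ ^ 2 + ‖y n‖ ^ 2 := by
      funext n
      have h0 : 0 ≤ ‖x n‖ ^ 2 + ‖y n‖ ^ 2 / 4 := by positivity
      rw [comb_apply, Real.norm_eq_abs, sq_abs, mul_pow, Real.sq_sqrt h0]
      ring
    rw [heq]
    exact h
  have h5 : ‖comb x y‖ ^ 2 = 4 * ‖x‖ ^ 2 + ‖y‖ ^ 2 := h3.unique h4
  have h0 : 0 ≤ ‖x‖ ^ 2 + ‖y‖ ^ 2 / 4 := by positivity
  have h6 : (2 * Real.sqrt (‖x‖ ^ 2 + ‖y‖ ^ 2 / 4)) ^ 2 = 4 * ‖x‖ ^ 2 + ‖y‖ ^ 2 := by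
    rw [mul_pow, Real.sq_sqrt h0]; ring
  exact (sq_eq_sq₀ (norm_nonneg _) (by positivity)).1 (h5.trans h6.symm)

/-- If the two-vector sums dominate up to a summable-small error, so do the global ones. -/
theorem comb_le (x y : lp X 2) (e : lp (fun _ : ℕ => ℝ) 2)
    (h : ∀ n, 2 * Real.sqrt (‖x n‖ ^ 2 + ‖y n‖ ^ 2 / 4) ≤ ‖x n + y n‖ + ‖x n - y n‖ + e n) :
    2 * Real.sqrt (‖x‖ ^ 2 + ‖y‖ ^ 2 / 4) ≤ ‖x + y‖ + ‖x - y‖ + ‖e‖ := by
  have h1 : ‖comb x y‖ ≤ ‖lp.toNorm (x + y) + lp.toNorm (x - y) + e‖ := by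
    apply lp.norm_mono (by norm_num)
    intro n
    have e1 : (lp.toNorm (x + y) + lp.toNorm (x - y) + e : lp (fun _ : ℕ => ℝ) 2) n
        = ‖x n + y n‖ + ‖x n - y n‖ + e n := by
      simp
    rw [e1, comb_apply, Real.norm_eq_abs, Real.norm_eq_abs, abs_of_nonneg (by positivity)]
    exact (h n).trans (le_abs_self _)
  rw [norm_comb] at h1
  refine h1.trans ?_
  refine (norm_add_le _ _).trans ?_
  gcongr
  refine (norm_add_le _ _).trans ?_
  rw [lp.norm_toNorm, lp.norm_toNorm]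

theorem sqrt_lip (a a' b : ℝ) (ha : 0 ≤ a) (ha' : 0 ≤ a') (hb : 0 ≤ b) (d : ℝ) (hd : 0 ≤ d)
    (h : a ≤ a' + d) : Real.sqrt (a ^ 2 + b) ≤ Real.sqrt (a' ^ 2 + b) + d := by
  have h0 : 0 ≤ a' ^ 2 + b := by positivity
  have h1 : a' ≤ Real.sqrt (a' ^ 2 + b) := by
    apply Real.le_sqrt_of_sq_le
    linarith
  rw [Real.sqrt_le_left (by positivity)]
  have h2 := Real.sq_sqrt h0
  nlinarith [mul_nonneg hd ha', mul_le_mul_of_nonneg_left h1 hd, mul_self_le_mul_self ha h]

end PropM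

section Main

variable (X : ℕ → Type*) [∀ n, NormedAddCommGroup (X n)] [∀ n, NormedSpace ℝ (X n)]

/-- The preimage of finitely many closed finite-codimensional subspaces in an `ℓ²`-sum. -/
theorem exists_subspace (N : ℕ) (S : ∀ n, Submodule ℝ (X n))
    (hS : ∀ n, IsClosed (S n : Set (X n))) (hfin : ∀ n, FiniteDimensional ℝ (X n ⧸ S n)) :
    ∃ T : Submodule ℝ (lp X 2), IsClosed (T : Set (lp X 2)) ∧
      FiniteDimensional ℝ (lp X 2 ⧸ T) ∧ ∀ y ∈ T, ∀ n < N, y n ∈ S n := by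
  let Φ : lp X 2 →ₗ[ℝ] (∀ n : Fin N, X n ⧸ S n) :=
    LinearMap.pi fun n => (S n).mkQ ∘ₗ (lp.evalCLM ℝ X 2 (n : ℕ)).toLinearMap
  have hmem : ∀ y : lp X 2, y ∈ LinearMap.ker Φ ↔ ∀ n : Fin N, y n ∈ S n := by
    intro y
    rw [LinearMap.mem_ker, funext_iff]
    refine forall_congr' fun n => ?_
    have : Φ y n = (S n).mkQ (y n) := rfl
    rw [this]
    simp
  refine ⟨LinearMap.ker Φ, ?_, ?_, ?_⟩
  · have : (LinearMap.ker Φ : Set (lp X 2)) =
        ⋂ n : Fin N, (lp.evalCLM ℝ X 2 (n : ℕ)) ⁻¹' (S n : Set (X n)) := by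
      ext y
      rw [SetLike.mem_coe, hmem]
      simp only [Set.mem_iInter, Set.mem_preimage, SetLike.mem_coe]
      rfl
    rw [this]
    exact isClosed_iInter fun n => (hS n).preimage (ContinuousLinearMap.continuous _)
  · have : FiniteDimensional ℝ (LinearMap.range Φ) := inferInstance
    exact (LinearMap.quotKerEquivRange Φ).symm.finiteDimensional
  · intro y hy n hn
    exact (hmem y).1 hy ⟨n, hn⟩

theorem propM_finite (h : ∀ n, PropM (X n)) (N : ℕ) (x : lp X 2) (hx : ∀ n, N ≤ n → x n = 0)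
    (ε : ℝ) (hε : 0 < ε) : ∃ S : Submodule ℝ (lp X 2), IsClosed (S : Set (lp X 2)) ∧
    FiniteDimensional ℝ (lp X 2 ⧸ S) ∧
    ∀ y ∈ S, 2 * Real.sqrt (‖x‖ ^ 2 + ‖y‖ ^ 2 / 4) - ε ≤ ‖x + y‖ + ‖x - y‖ := by
  have hη : 0 < ε / (N + 1) := by positivity
  choose S hS1 hS2 hS3 using fun n => h n (x n) (ε / (N + 1)) hη
  obtain ⟨T, hT1, hT2, hT3⟩ := exists_subspace X N S hS1 hS2
  refine ⟨T, hT1, hT2, fun y hy => ?_⟩
  let e : lp (fun _ : ℕ => ℝ) 2 := ∑ n ∈ Finset.range N, lp.single 2 n (ε / (N + 1))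
  have he : ∀ n, e n = if n < N then ε / (N + 1) else 0 := by
    intro n
    simp only [e, lp.coeFn_sum, Finset.sum_apply, lp.single_apply]
    simp [Pi.single_apply, Finset.sum_ite_eq]
  have hne : ‖e‖ ≤ ε := by
    refine (norm_sum_le _ _).trans ?_
    have : ∀ n ∈ Finset.range N, ‖(lp.single 2 n (ε / (N + 1)) : lp (fun _ : ℕ => ℝ) 2)‖
        ≤ ε / (N + 1) := by
      intro n _
      rw [lp.norm_single (by norm_num), Real.norm_eq_abs, abs_of_pos hη]
    refine (Finset.sum_le_sum this).trans ?_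
    rw [Finset.sum_const, Finset.card_range, nsmul_eq_mul, mul_div_assoc', div_le_iff₀ (by positivity)]
    nlinarith
  have key := comb_le x y e (fun n => ?_)
  · linarith
  · rw [he]
    split_ifs with hn
    · have := hS3 n (y n) (hT3 y hy n hn)
      linarith
    · rw [hx n (not_lt.1 hn)]
      have h1 : Real.sqrt (‖(0 : X n)‖ ^ 2 + ‖y n‖ ^ 2 / 4) = ‖y n‖ / 2 := by
        rw [norm_zero, show (0 : ℝ) ^ 2 + ‖y n‖ ^ 2 / 4 = (‖y n‖ / 2) ^ 2 by ring]
        exact Real.sqrt_sq (by positivity)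
      rw [h1]
      simp only [zero_add, zero_sub, norm_neg]
      linarith [norm_nonneg (y n)]

theorem propM_lp_two (h : ∀ n, PropM (X n)) : PropM (lp X 2) := by
  intro x ε hε
  have hs := lp.hasSum_single (by norm_num) x
  have hδ : 0 < ε / 8 := by positivity
  obtain ⟨s, hs⟩ := (Metric.tendsto_atTop.1 hs.tendsto_sum_nat) (ε / 8) hδ
  have hs := hs s le_rfl
  set x' : lp X 2 := ∑ i ∈ Finset.range s, lp.single 2 i (x i) with hx'
  have hd : ‖x - x'‖ ≤ ε / 8 := by
    rw [dist_comm, dist_eq_norm] at hs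
    exact hs.le
  have hx0 : ∀ n, s ≤ n → x' n = 0 := by
    intro n hn
    simp only [hx', lp.coeFn_sum, Finset.sum_apply, lp.single_apply]
    refine Finset.sum_eq_zero fun i hi => ?_
    rw [Finset.mem_range] at hi
    exact Pi.single_eq_of_ne (by omega) _
  obtain ⟨T, hT1, hT2, hT3⟩ := propM_finite X h s x' hx0 (ε / 2) (by positivity)
  refine ⟨T, hT1, hT2, fun y hy => ?_⟩
  have h1 := hT3 y hy
  have h2 : ‖x‖ ≤ ‖x'‖ + ε / 8 := by
    have := norm_le_norm_add_norm_sub' x x'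
    linarith
  have h3 := sqrt_lip ‖x‖ ‖x'‖ (‖y‖ ^ 2 / 4) (norm_nonneg _) (norm_nonneg _) (by positivity)
    (ε / 8) hδ.le h2
  have h4 : ‖x' + y‖ ≤ ‖x + y‖ + ε / 8 := by
    have : x' + y = (x + y) - (x - x') := by abel
    rw [this]
    exact (norm_sub_le _ _).trans (by linarith)
  have h5 : ‖x' - y‖ ≤ ‖x - y‖ + ε / 8 := by
    have : x' - y = (x - y) - (x - x') := by abel
    rw [this]
    exact (norm_sub_le _ _).trans (by linarith)
  linarith

theorem separable_lp_two (h : ∀ n, TopologicalSpace.SeparableSpace (X n)) :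
    TopologicalSpace.SeparableSpace (lp X 2) := by
  rw [← TopologicalSpace.isSeparable_univ_iff]
  have h1 : TopologicalSpace.IsSeparable
      (⋃ n : ℕ, Set.range (fun a : X n => (lp.single 2 n a : lp X 2))) := by
    refine TopologicalSpace.IsSeparable.iUnion fun n => ?_
    exact TopologicalSpace.isSeparable_range (lp.isometry_single n).continuous
  refine (h1.span (R := ℝ)).closure.mono ?_
  intro f _
  have hs := lp.hasSum_single (by norm_num) f
  refine mem_closure_of_tendsto hs ?_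
  filter_upwards with s
  refine Submodule.sum_mem _ fun i _ => Submodule.subset_span ?_
  exact Set.mem_iUnion.2 ⟨i, f i, rfl⟩

end Main

end Crest.Agent.R125
end

-- ▼ part R125/Diamond
section

/-!
Distortion lower bound for the countably branching diamonds from property (M) (result 125, S0166).
-/

set_option autoImplicit false

namespace Crest.Agent.R125

open Crest.AnalysisR

namespace Diamond

/-- Old vertices in the next diamond. -/
def vl {k : ℕ} (u : DiamondVertex k) : DiamondVertex (k + 1) :=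
  (Sum.inl u : DiamondVertex k ⊕ (DiamondEdge k × ℕ))

/-- New middle vertices in the next diamond. -/
def vm {k : ℕ} (e : DiamondEdge k) (i : ℕ) : DiamondVertex (k + 1) :=
  (Sum.inr (e, i) : DiamondVertex k ⊕ (DiamondEdge k × ℕ))

/-- Edges of the next diamond. -/
def ed {k : ℕ} (e : DiamondEdge k) (i : ℕ) (b : Bool) : DiamondEdge (k + 1) :=
  ((e, i, b) : DiamondEdge k × ℕ × Bool)

lemma vertex_cases {k : ℕ} (x : DiamondVertex (k + 1)) :
    (∃ u, x = vl u) ∨ ∃ e i, x = vm e i := by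
  rcases (show DiamondVertex k ⊕ (DiamondEdge k × ℕ) from x) with u | ⟨e, i⟩
  · exact Or.inl ⟨u, rfl⟩
  · exact Or.inr ⟨e, i, rfl⟩

lemma edge_cases {k : ℕ} (x : DiamondEdge (k + 1)) : ∃ e i b, x = ed e i b := by
  obtain ⟨e, i, b⟩ := (show DiamondEdge k × ℕ × Bool from x)
  exact ⟨e, i, b, rfl⟩

lemma src_false {k : ℕ} (e : DiamondEdge k) (i : ℕ) :
    diamondSrc (k + 1) (ed e i false) = vl (diamondSrc k e) := rfl
lemma src_true {k : ℕ} (e : DiamondEdge k) (i : ℕ) :
    diamondSrc (k + 1) (ed e i true) = vm e i := rfl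
lemma tgt_false {k : ℕ} (e : DiamondEdge k) (i : ℕ) :
    diamondTgt (k + 1) (ed e i false) = vm e i := rfl
lemma tgt_true {k : ℕ} (e : DiamondEdge k) (i : ℕ) :
    diamondTgt (k + 1) (ed e i true) = vl (diamondTgt k e) := rfl

lemma vl_ne_vm {k : ℕ} (u : DiamondVertex k) (e : DiamondEdge k) (i : ℕ) : vl u ≠ vm e i := by
  intro h
  exact Sum.inl_ne_inr (show (Sum.inl u : DiamondVertex k ⊕ (DiamondEdge k × ℕ)) =
    Sum.inr (e, i) from h)

lemma vm_inj {k : ℕ} {e e' : DiamondEdge k} {i i' : ℕ} (h : vm e i = vm e' i') : i = i' := by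
  have h2 := Sum.inr_injective (show (Sum.inr (e, i) : DiamondVertex k ⊕ (DiamondEdge k × ℕ)) =
    Sum.inr (e', i') from h)
  exact (Prod.mk.inj h2).2

lemma src_ne_tgt : ∀ (k : ℕ) (e : DiamondEdge k), diamondSrc k e ≠ diamondTgt k e
  | 0, _ => by
    intro h
    exact Bool.false_ne_true h
  | k + 1, x => by
    obtain ⟨e, i, b, rfl⟩ := edge_cases x
    cases b
    · exact vl_ne_vm _ _ _
    · exact (vl_ne_vm _ _ _).symm

lemma adj_edge (k : ℕ) (e : DiamondEdge k) :
    (diamondGraph k).Adj (diamondSrc k e) (diamondTgt k e) := by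
  rw [diamondGraph, SimpleGraph.fromRel_adj]
  exact ⟨src_ne_tgt k e, Or.inl ⟨e, rfl, rfl⟩⟩

lemma adj_iff (k : ℕ) (u v : DiamondVertex k) : (diamondGraph k).Adj u v ↔
    (∃ e, diamondSrc k e = u ∧ diamondTgt k e = v) ∨
      (∃ e, diamondSrc k e = v ∧ diamondTgt k e = u) := by
  rw [diamondGraph, SimpleGraph.fromRel_adj]
  constructor
  · rintro ⟨_, h | h⟩
    · exact Or.inl h
    · exact Or.inr h
  · rintro (⟨e, rfl, rfl⟩ | ⟨e, rfl, rfl⟩)
    · exact ⟨src_ne_tgt k e, Or.inl ⟨e, rfl, rfl⟩⟩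
    · exact ⟨(src_ne_tgt k e).symm, Or.inr ⟨e, rfl, rfl⟩⟩

lemma adj_src_mid (k : ℕ) (e : DiamondEdge k) (i : ℕ) :
    (diamondGraph (k + 1)).Adj (vl (diamondSrc k e)) (vm e i) :=
  adj_edge (k + 1) (ed e i false)

lemma adj_mid_tgt (k : ℕ) (e : DiamondEdge k) (i : ℕ) :
    (diamondGraph (k + 1)).Adj (vm e i) (vl (diamondTgt k e)) :=
  adj_edge (k + 1) (ed e i true)

lemma not_adj_mid_mid (k : ℕ) (e e' : DiamondEdge k) (i i' : ℕ) :
    ¬ (diamondGraph (k + 1)).Adj (vm e i) (vm e' i') := by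
  rw [adj_iff]
  rintro (⟨x, h1, h2⟩ | ⟨x, h1, h2⟩) <;> obtain ⟨e, i, b, rfl⟩ := edge_cases x <;> cases b
  · exact vl_ne_vm _ _ _ h1
  · exact vl_ne_vm _ _ _ h2
  · exact vl_ne_vm _ _ _ h1
  · exact vl_ne_vm _ _ _ h2

lemma reachable_inl {k : ℕ} {u v : DiamondVertex k} (h : (diamondGraph k).Reachable u v) :
    (diamondGraph (k + 1)).Reachable (vl u) (vl v) := by
  obtain ⟨w⟩ := h
  induction w with
  | nil => exact SimpleGraph.Reachable.refl _
  | cons hadj _ ih =>
    refine SimpleGraph.Reachable.trans ?_ ih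
    rcases (adj_iff _ _ _).1 hadj with ⟨e, rfl, rfl⟩ | ⟨e, rfl, rfl⟩
    · exact (adj_src_mid k e 0).reachable.trans (adj_mid_tgt k e 0).reachable
    · exact ((adj_src_mid k e 0).reachable.trans (adj_mid_tgt k e 0).reachable).symm

lemma connected : ∀ k : ℕ, (diamondGraph k).Connected
  | 0 => by
    have : Nonempty (DiamondVertex 0) := ⟨false⟩
    refine ⟨?_⟩
    have h : (diamondGraph 0).Adj false true := adj_edge 0 ()
    intro u v
    change Bool at u
    change Bool at v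
    cases u <;> cases v
    · exact SimpleGraph.Reachable.refl _
    · exact h.reachable
    · exact h.symm.reachable
    · exact SimpleGraph.Reachable.refl _
  | k + 1 => by
    have ih := connected k
    have : Nonempty (DiamondVertex k) := ih.nonempty
    have : Nonempty (DiamondVertex (k + 1)) := ⟨vl (Classical.arbitrary _)⟩
    refine ⟨?_⟩
    have key : ∀ x : DiamondVertex (k + 1), ∃ w : DiamondVertex k,
        (diamondGraph (k + 1)).Reachable x (vl w) := by
      intro x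
      rcases vertex_cases x with ⟨w, rfl⟩ | ⟨e, i, rfl⟩
      · exact ⟨w, SimpleGraph.Reachable.refl _⟩
      · exact ⟨_, (adj_mid_tgt k e i).reachable⟩
    intro x y
    obtain ⟨u, hu⟩ := key x
    obtain ⟨v, hv⟩ := key y
    exact hu.trans ((reachable_inl (ih.preconnected u v)).trans hv.symm)

/-- The comparison function used for the doubling of distances. -/
noncomputable def cmp (k : ℕ) (u : DiamondVertex k) (x : DiamondVertex (k + 1)) : ℤ :=
  Sum.elim (fun w => 2 * ((diamondGraph k).dist u w : ℤ))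
    (fun p : DiamondEdge k × ℕ => ((diamondGraph k).dist u (diamondSrc k p.1) : ℤ) +
      ((diamondGraph k).dist u (diamondTgt k p.1) : ℤ))
    (show DiamondVertex k ⊕ (DiamondEdge k × ℕ) from x)

lemma cmp_vl (k : ℕ) (u w : DiamondVertex k) :
    cmp k u (vl w) = 2 * ((diamondGraph k).dist u w : ℤ) := rfl

lemma cmp_vm (k : ℕ) (u : DiamondVertex k) (e : DiamondEdge k) (i : ℕ) :
    cmp k u (vm e i) = ((diamondGraph k).dist u (diamondSrc k e) : ℤ) +
      ((diamondGraph k).dist u (diamondTgt k e) : ℤ) := rfl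

lemma dist_src_tgt_le (k : ℕ) (u : DiamondVertex k) (e : DiamondEdge k) :
    ((diamondGraph k).dist u (diamondSrc k e) : ℤ) ≤
      (diamondGraph k).dist u (diamondTgt k e) + 1 ∧
    ((diamondGraph k).dist u (diamondTgt k e) : ℤ) ≤
      (diamondGraph k).dist u (diamondSrc k e) + 1 := by
  have h1 : (diamondGraph k).dist (diamondSrc k e) (diamondTgt k e) = 1 :=
    SimpleGraph.dist_eq_one_iff_adj.2 (adj_edge k e)
  have h2 : (diamondGraph k).dist (diamondTgt k e) (diamondSrc k e) = 1 :=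
    SimpleGraph.dist_eq_one_iff_adj.2 (adj_edge k e).symm
  have h3 := (connected k).dist_triangle (u := u) (v := diamondTgt k e) (w := diamondSrc k e)
  have h4 := (connected k).dist_triangle (u := u) (v := diamondSrc k e) (w := diamondTgt k e)
  omega

lemma cmp_adj (k : ℕ) (u : DiamondVertex k) (x y : DiamondVertex (k + 1))
    (h : (diamondGraph (k + 1)).Adj x y) : cmp k u y ≤ cmp k u x + 1 := by
  rcases (adj_iff _ _ _).1 h with ⟨z, rfl, rfl⟩ | ⟨z, rfl, rfl⟩ <;>
    obtain ⟨e, i, b, rfl⟩ := edge_cases z <;>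
    have h1 := dist_src_tgt_le k u e <;> cases b <;>
    simp only [src_false, src_true, tgt_false, tgt_true, cmp_vl, cmp_vm] <;> omega

lemma cmp_walk (k : ℕ) (u : DiamondVertex k) {x y : DiamondVertex (k + 1)}
    (w : (diamondGraph (k + 1)).Walk x y) : cmp k u y ≤ cmp k u x + w.length := by
  induction w with
  | nil => simp
  | cons hadj _ ih =>
    have h1 := cmp_adj k u _ _ hadj
    rw [SimpleGraph.Walk.length_cons]
    push_cast
    linarith

lemma two_mul_dist_le (k : ℕ) (u v : DiamondVertex k) :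
    2 * diamondDist k u v ≤ diamondDist (k + 1) (vl u) (vl v) := by
  obtain ⟨w, hw⟩ := (connected (k + 1)).exists_walk_length_eq_dist (vl u) (vl v)
  have h := cmp_walk k u w
  simp only [cmp_vl, SimpleGraph.dist_self] at h
  rw [hw] at h
  unfold diamondDist
  omega

lemma two_le_dist_mid (k : ℕ) (e : DiamondEdge k) {i j : ℕ} (hij : i ≠ j) :
    2 ≤ diamondDist (k + 1) (vm e i) (vm e j) := by
  refine (connected (k + 1)).one_lt_dist_of_ne_of_not_adj ?_ (not_adj_mid_mid k _ _ _ _)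
  intro h
  exact hij (vm_inj h)

lemma nonempty_edge : ∀ n, Nonempty (DiamondEdge n)
  | 0 => ⟨()⟩
  | n + 1 => (nonempty_edge n).map fun e => ed e 0 true

lemma dist_edge (k : ℕ) (e : DiamondEdge k) :
    diamondDist k (diamondSrc k e) (diamondTgt k e) = 1 :=
  SimpleGraph.dist_eq_one_iff_adj.2 (adj_edge k e)

variable {X : Type*} [NormedAddCommGroup X] [NormedSpace ℝ X]

/-- In a bounded sequence two members differ by a vector close to a given closed
finite-codimensional subspace. -/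
lemma exists_pair_near (S : Submodule ℝ X) (hS : IsClosed (S : Set X))
    (hfin : FiniteDimensional ℝ (X ⧸ S)) (w : ℕ → X) (L : ℝ) (hw : ∀ n, ‖w n‖ ≤ L)
    (ε : ℝ) (hε : 0 < ε) : ∃ i j : ℕ, i ≠ j ∧ ∃ y ∈ S, ‖w i - w j - y‖ ≤ ε := by
  have : IsClosed (S : Set X) := hS
  have : ProperSpace (X ⧸ S) := FiniteDimensional.proper ℝ (X ⧸ S)
  have hb : ∀ n, (Submodule.Quotient.mk (w n) : X ⧸ S) ∈ Metric.closedBall (0 : X ⧸ S) L := by
    intro n
    rw [mem_closedBall_zero_iff]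
    exact (Submodule.Quotient.norm_mk_le S (w n)).trans (hw n)
  obtain ⟨a, _, φ, hφ, hlim⟩ := tendsto_subseq_of_bounded Metric.isBounded_closedBall hb
  have hc : CauchySeq ((fun n => (Submodule.Quotient.mk (w n) : X ⧸ S)) ∘ φ) := hlim.cauchySeq
  rw [Metric.cauchySeq_iff] at hc
  obtain ⟨n0, hn0⟩ := hc (ε / 2) (by positivity)
  have h1 := hn0 n0 le_rfl (n0 + 1) (Nat.le_succ _)
  refine ⟨φ n0, φ (n0 + 1), (hφ (Nat.lt_succ_self _)).ne, ?_⟩
  simp only [Function.comp] at h1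
  rw [dist_eq_norm, ← Submodule.Quotient.mk_sub] at h1
  obtain ⟨m, hm, hmn⟩ := Submodule.Quotient.norm_mk_lt
    (Submodule.Quotient.mk (w (φ n0) - w (φ (n0 + 1))) : X ⧸ S) (ε := ε / 2) (by positivity)
  refine ⟨w (φ n0) - w (φ (n0 + 1)) - m, ?_, ?_⟩
  · rw [← Submodule.Quotient.eq]
    exact hm.symm
  · rw [sub_sub_cancel]
    linarith

/-- `ℓ²`-type Lipschitz bound. -/
lemma sqrt_add_le (a b c : ℝ) (hb : 0 ≤ b) (hc : 0 ≤ c) :
    Real.sqrt (a ^ 2 + (b + c) ^ 2 / 4) ≤ Real.sqrt (a ^ 2 + b ^ 2 / 4) + c / 2 := by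
  have h0 : 0 ≤ a ^ 2 + b ^ 2 / 4 := by positivity
  have h1 : b / 2 ≤ Real.sqrt (a ^ 2 + b ^ 2 / 4) := by
    apply Real.le_sqrt_of_sq_le
    nlinarith [sq_nonneg a]
  rw [Real.sqrt_le_left (by positivity)]
  nlinarith [Real.sq_sqrt h0, Real.sqrt_nonneg (a ^ 2 + b ^ 2 / 4)]

/-- Infinitely many separated approximate midpoints force a gain. -/
lemma midpoint_gain (hM : PropM X) (x : X) (w : ℕ → X) (s L : ℝ) (hs : 0 < s)
    (h1 : ∀ n, ‖x + w n‖ ≤ L) (h2 : ∀ n, ‖x - w n‖ ≤ L)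
    (hsep : ∀ i j, i ≠ j → 2 * s ≤ ‖w i - w j‖) : Real.sqrt (‖x‖ ^ 2 + s ^ 2 / 4) ≤ L := by
  refine le_of_forall_pos_le_add fun δ hδ => ?_
  set ε : ℝ := min s (δ / 2) with hεdef
  have hε : 0 < ε := lt_min hs (by positivity)
  have hεs : ε ≤ s := min_le_left _ _
  have hεδ : ε ≤ δ / 2 := min_le_right _ _
  obtain ⟨S, hS, hfin, hMS⟩ := hM x ε hε
  have hwn : ∀ n, ‖w n‖ ≤ L := by
    intro n
    have h3 : w n = (1 / 2 : ℝ) • ((x + w n) - (x - w n)) := by
      module
    rw [h3, norm_smul]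
    have h4 := norm_sub_le (x + w n) (x - w n)
    have h5 : ‖(1 / 2 : ℝ)‖ = 1 / 2 := by norm_num
    rw [h5]
    linarith [h1 n, h2 n]
  obtain ⟨i, j, hij, y, hyS, hy⟩ := exists_pair_near S hS hfin w L hwn (2 * ε) (by positivity)
  have hy2S : (1 / 2 : ℝ) • y ∈ S := S.smul_mem _ hyS
  set y' : X := (1 / 2 : ℝ) • y with hy'
  have hd : ‖(1 / 2 : ℝ) • (w i - w j) - y'‖ ≤ ε := by
    rw [hy', ← smul_sub, norm_smul]
    have h5 : ‖(1 / 2 : ℝ)‖ = 1 / 2 := by norm_num
    rw [h5]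
    linarith
  have hyn : s - ε ≤ ‖y'‖ := by
    have h6 : s ≤ ‖(1 / 2 : ℝ) • (w i - w j)‖ := by
      rw [norm_smul]
      have h5 : ‖(1 / 2 : ℝ)‖ = 1 / 2 := by norm_num
      rw [h5]
      linarith [hsep i j hij]
    have h7 := norm_sub_norm_le ((1 / 2 : ℝ) • (w i - w j)) y'
    linarith
  have hp : ‖x + y'‖ ≤ L + ε := by
    have h8 : x + y' = (1 / 2 : ℝ) • ((x + w i) + (x - w j)) -
        ((1 / 2 : ℝ) • (w i - w j) - y') := by module
    rw [h8]
    refine (norm_sub_le _ _).trans ?_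
    rw [norm_smul]
    have h5 : ‖(1 / 2 : ℝ)‖ = 1 / 2 := by norm_num
    rw [h5]
    have h9 := norm_add_le (x + w i) (x - w j)
    linarith [h1 i, h2 j]
  have hq : ‖x - y'‖ ≤ L + ε := by
    have h8 : x - y' = (1 / 2 : ℝ) • ((x - w i) + (x + w j)) +
        ((1 / 2 : ℝ) • (w i - w j) - y') := by module
    rw [h8]
    refine (norm_add_le _ _).trans ?_
    rw [norm_smul]
    have h5 : ‖(1 / 2 : ℝ)‖ = 1 / 2 := by norm_num
    rw [h5]
    have h9 := norm_add_le (x - w i) (x + w j)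
    linarith [h2 i, h1 j]
  have hfinal := hMS y' hy2S
  have hmono : Real.sqrt (‖x‖ ^ 2 + (s - ε) ^ 2 / 4) ≤ Real.sqrt (‖x‖ ^ 2 + ‖y'‖ ^ 2 / 4) := by
    apply Real.sqrt_le_sqrt
    have : (s - ε) ^ 2 ≤ ‖y'‖ ^ 2 := pow_le_pow_left₀ (by linarith) hyn 2
    linarith
  have hlip := sqrt_add_le ‖x‖ (s - ε) ε (by linarith) hε.le
  rw [sub_add_cancel] at hlip
  linarith

/-- The inductive statement. -/
lemma main (hM : PropM X) : ∀ (k : ℕ) (f : DiamondVertex k → X) (s L : ℝ), 0 < s →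
    (∀ u v, s * (diamondDist k u v : ℝ) ≤ ‖f u - f v‖) →
    (∀ e, ‖f (diamondSrc k e) - f (diamondTgt k e)‖ ≤ L) →
    s ^ 2 * (1 + (k : ℝ) / 4) ≤ L ^ 2 := by
  intro k
  induction k with
  | zero =>
    intro f s L hs hlow hup
    obtain ⟨e0⟩ := nonempty_edge 0
    have h1 := hlow (diamondSrc 0 e0) (diamondTgt 0 e0)
    rw [dist_edge] at h1
    have h2 := hup e0
    have h3 : s ≤ L := by
      push_cast at h1
      linarith
    have := pow_le_pow_left₀ hs.le h3 2
    simpa using this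
  | succ k ih =>
    intro f s L hs hlow hup
    obtain ⟨e0⟩ := nonempty_edge (k + 1)
    have hsL : s ≤ L := by
      have h10 := hlow (diamondSrc (k + 1) e0) (diamondTgt (k + 1) e0)
      rw [dist_edge] at h10
      have h11 := hup e0
      push_cast at h10
      linarith
    have hL0 : 0 ≤ L := hs.le.trans hsL
    have hLs : 0 ≤ L ^ 2 - s ^ 2 / 4 := by nlinarith
    have hkey : ∀ e : DiamondEdge k,
        ‖f (vl (diamondSrc k e)) - f (vl (diamondTgt k e))‖ ≤
          2 * Real.sqrt (L ^ 2 - s ^ 2 / 4) := by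
      intro e
      set a : X := f (vl (diamondSrc k e))
      set b : X := f (vl (diamondTgt k e))
      have hg := midpoint_gain hM ((1 / 2 : ℝ) • (a - b))
        (fun n : ℕ => f (vm e n) - (1 / 2 : ℝ) • (a + b)) s L hs ?_ ?_ ?_
      · have h5 : ‖(1 / 2 : ℝ)‖ = 1 / 2 := by norm_num
        rw [norm_smul, h5, Real.sqrt_le_left hL0] at hg
        have h6 : ‖a - b‖ / 2 ≤ Real.sqrt (L ^ 2 - s ^ 2 / 4) := by
          apply Real.le_sqrt_of_sq_le
          nlinarith
        linarith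
      · intro n
        have h7 : (1 / 2 : ℝ) • (a - b) + (f (vm e n) - (1 / 2 : ℝ) • (a + b)) =
            f (vm e n) - b := by module
        simp only [h7]
        exact hup (ed e n true)
      · intro n
        have h7 : (1 / 2 : ℝ) • (a - b) - (f (vm e n) - (1 / 2 : ℝ) • (a + b)) =
            a - f (vm e n) := by module
        simp only [h7]
        exact hup (ed e n false)
      · intro i j hij
        have h8 : f (vm e i) - (1 / 2 : ℝ) • (a + b) -
            (f (vm e j) - (1 / 2 : ℝ) • (a + b)) =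
            f (vm e i) - f (vm e j) := by abel
        simp only [h8]
        refine le_trans ?_ (hlow (vm e i) (vm e j))
        have h9 : (2 : ℝ) ≤ (diamondDist (k + 1) (vm e i) (vm e j) : ℝ) := by
          exact_mod_cast two_le_dist_mid k e hij
        nlinarith
    have h := ih (fun u => f (vl u)) (2 * s) (2 * Real.sqrt (L ^ 2 - s ^ 2 / 4))
      (by positivity) ?_ hkey
    · rw [mul_pow, mul_pow, Real.sq_sqrt hLs] at h
      push_cast
      nlinarith
    · intro u v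
      refine le_trans ?_ (hlow (vl u) (vl v))
      have h13 : (2 : ℝ) * (diamondDist k u v : ℝ) ≤
          (diamondDist (k + 1) (vl u) (vl v) : ℝ) := by
        exact_mod_cast two_mul_dist_le k u v
      nlinarith

end Diamond

/-- Task A: distortion lower bound for the countably branching diamonds. -/
theorem diamond_distortion {X : Type} [nX : NormedAddCommGroup X] [sX : NormedSpace ℝ X]
    (cX : CompleteSpace X) (hM : PropM X) (k : ℕ) (f : DiamondVertex k → X) (D : ℝ)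
    (h : (RealBanach.mk X nX sX cX).HasDistortionLE k f D) : 1 + (k : ℝ) / 4 ≤ D ^ 2 := by
  obtain ⟨s, hs, hf⟩ := h
  have h1 := Diamond.main hM k f s (D * s) hs (fun u v => (hf u v).1) (fun e => by
    have h2 := (hf (diamondSrc k e) (diamondTgt k e)).2
    rw [Diamond.dist_edge] at h2
    simpa using h2)
  have h2 : s ^ 2 * (1 + (k : ℝ) / 4) ≤ s ^ 2 * D ^ 2 := by nlinarith
  exact le_of_mul_le_mul_left h2 (by positivity)

end Crest.Agent.R125
end

-- ▼ part R125/Space

/-!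
The reflexive space of S0166: the `ℓ²`-sum of the finite-depth pieces (result 125).
-/

set_option autoImplicit false

namespace Crest.Agent.R125.Space

open Crest.AnalysisR Crest.AnalysisR.TreePotential Crest.Agent.R125 Crest.Agent.R125.Pot
  Crest.Agent.R125.Depth

/-- the pieces -/
abbrev P (n : ℕ) : Type := Y n

/-- the space -/
abbrev Z : Type := lp P 2

/-- path vector in the `n`-th piece -/
noncomputable def pv (n : ℕ) (s : List ℕ) (hs : s.length ≤ n) : Z :=
  lp.single 2 n (⟨pathVec gm s, pathVec_mem_Y hs⟩ : P n)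

/-- coordinate vector in the `n`-th piece -/
noncomputable def cv (n : ℕ) (s : List ℕ) (hs : s.length ≤ n) : P n :=
  ⟨coordVector gm s, coordVector_mem_Y hs⟩

theorem not_isAUC (cZ : CompleteSpace Z) (N : Z → ℝ)
    (hN : (RealBanach.mk Z inferInstance inferInstance cZ).IsEquivNorm N) :
    ¬ (RealBanach.mk Z inferInstance inferInstance cZ).IsAUC N := by
  refine not_isAUC_of_tree (X := Z) cZ
    (fun j => {z | ∃ (n : ℕ) (s : List ℕ) (hs : s.length + j ≤ n),
      z = pv n s (by omega)}) 1 1 1 one_pos one_pos ?_ ?_ ?_ N hN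
  · rintro j _ ⟨n, s, hs, rfl⟩
    rw [pv, lp.norm_single (by norm_num)]
    exact norm_pathVec_le gm s
  · intro j
    refine ⟨pv j [] (by simp), ⟨j, [], by simp, rfl⟩, ?_⟩
    rw [pv, lp.norm_single (by norm_num)]
    exact one_le_norm_pathVec (m := gm) (s := []) (by simp)
  · rintro j _ ⟨n, s, hs, rfl⟩ S hS hfd η hη
    have hlen : ∀ a : ℕ, (a :: s).length ≤ n := by
      intro a
      simp only [List.length_cons]
      omega
    obtain ⟨n₀, hn₀⟩ := eventually_near_of_l2_upper (X := Z)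
      (fun a => (lp.single 2 n (cv n (a :: s) (hlen a)) : Z)) 1 (by
        intro A ε hε
        have h1 := l2_upper_children gm s A ε hε
        have h2 : (∑ a ∈ A, ε a • (lp.single 2 n (cv n (a :: s) (hlen a)) : Z)) =
            lp.single 2 n (∑ a ∈ A, ε a • cv n (a :: s) (hlen a)) := by
          have h3 := map_sum (lp.singleContinuousLinearMap ℝ P 2 n)
            (fun a => ε a • cv n (a :: s) (hlen a)) A
          simp only [map_smul, lp.singleContinuousLinearMap_apply] at h3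
          exact h3.symm
        rw [h2, lp.norm_single (by norm_num)]
        have h4 : ((∑ a ∈ A, ε a • cv n (a :: s) (hlen a) : P n) : Amb gm) =
            ∑ a ∈ A, ε a • coordVector gm (a :: s) := by
          push_cast
          rfl
        show ‖((∑ a ∈ A, ε a • cv n (a :: s) (hlen a) : P n) : Amb gm)‖ ≤ _
        rw [h4]; exact h1) S hS hfd η hη
    obtain ⟨y, hy, hle⟩ := hn₀ n₀ le_rfl
    have hdiff : pv n (n₀ :: s) (hlen n₀) - pv n s (by omega) =
        lp.single 2 n (cv n (n₀ :: s) (hlen n₀)) := by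
      rw [pv, pv, ← lp.single_sub]
      congr 1
      apply Subtype.ext
      show pathVec gm (n₀ :: s) - pathVec gm s = coordVector gm (n₀ :: s)
      rw [pathVec]; abel
    refine ⟨pv n (n₀ :: s) (hlen n₀), ⟨n, n₀ :: s, by simp only [List.length_cons]; omega, rfl⟩,
      y, hy, ?_, ?_⟩
    · rw [hdiff, lp.norm_single (by norm_num)]
      exact one_le_norm_coord (m := gm) (by simp)
    · rw [hdiff]; exact hle

theorem propM_Z : PropM Z := propM_lp_two P propM_Y

theorem reflexive_Z : Reflexive Z := reflexive_lp_two P reflexive_Y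

theorem separable_Z : TopologicalSpace.SeparableSpace Z := separable_lp_two P separable_Y

end Crest.Agent.R125.Space
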