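import Mathlib
import Crest.Prelude.Def_TreeProducts

/-!
Probabilistic estimates for path products of independent multipliers (result 125, S0169).
-/

set_option autoImplicit false
set_option warn.classDefReducibility false

namespace Crest.Agent.R125.TreeProd

open MeasureTheory ProbabilityTheory Crest.AnalysisR.TreeProduct

lemma meas_aux {Ω : Type} {m : MeasurableSpace Ω} {X Y : Ω → ℝ} (hX : Measurable X)
    (hY : Measurable Y) : Measurable (fun z => X z * (Y z - 1) * X z) :=
  (hX.mul (hY.sub_const 1)).mul hX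

lemma meas_aux' {Ω : Type} {m : MeasurableSpace Ω} {Y : Ω → ℝ}
    (hY : Measurable Y) : Measurable (fun z => Y z - 1) := hY.sub_const 1

variable {Ω : Type} [mΩ : MeasurableSpace Ω] {μ : Measure Ω} {W : List ℕ → Ω → ℝ}

/-- The sigma-algebra generated by the members of `W` with index in `T`. -/
def sig (W : List ℕ → Ω → ℝ) (T : Set (List ℕ)) : MeasurableSpace Ω :=
  ⨆ i ∈ T, MeasurableSpace.comap (W i) inferInstance

omit mΩ in
lemma measurable_W_sig {T : Set (List ℕ)} {u : List ℕ} (hu : u ∈ T) :
    Measurable[sig W T] (W u) := by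
  have h1 : MeasurableSpace.comap (W u) inferInstance ≤ sig W T :=
    le_iSup₂_of_le u hu le_rfl
  exact (comap_measurable (W u)).mono h1 le_rfl

omit mΩ in
lemma measurable_pathProduct_sig [MeasurableSpace Ω] (v : List ℕ) {T : Set (List ℕ)}
    (h : ∀ u, u <:+ v → u ∈ T) : Measurable[sig W T] (pathProduct W v) := by
  induction v with
  | nil => exact measurable_const
  | cons a v ih =>
    have h1 : Measurable[sig W T] (pathProduct W v) :=
      ih fun u hu => h u (hu.trans (List.suffix_cons a v))
    have h2 : Measurable[sig W T] (W (a :: v)) := measurable_W_sig (h _ List.suffix_rfl)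
    exact h1.mul h2

lemma indepFun_of_disjoint (hm : ∀ v, Measurable (W v)) (hW : iIndepFun W μ)
    {S T : Set (List ℕ)} (hST : Disjoint S T) {X Y : Ω → ℝ}
    (hX : Measurable[sig W S] X) (hY : Measurable[sig W T] Y) : IndepFun X Y μ := by
  have h1 : Indep (sig W S) (sig W T) μ :=
    indep_iSup_of_disjoint (fun i => (hm i).comap_le) hW hST
  exact indep_of_indep_of_le_left (indep_of_indep_of_le_right h1 hY.comap_le) hX.comap_le

lemma measurable_pathProduct (hm : ∀ v, Measurable (W v)) (v : List ℕ) :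
    Measurable (pathProduct W v) := by
  induction v with
  | nil => exact measurable_const
  | cons a v ih => exact ih.mul (hm _)

/-- A function of the path to `v` and a function of the new vertex are independent. -/
lemma indep_path_new (hm : ∀ v, Measurable (W v)) (hW : iIndepFun W μ) (v : List ℕ) (a : ℕ)
    {X Y : Ω → ℝ} (hX : Measurable[sig W {u | u <:+ v}] X)
    (hY : Measurable[sig W {a :: v}] Y) : IndepFun X Y μ := by
  refine indepFun_of_disjoint hm hW ?_ hX hY
  rw [Set.disjoint_singleton_right]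
  intro h
  have := List.IsSuffix.length_le h
  simp at this

/-- Data extracted from the hypotheses of the statement. -/
structure Data (μ : Measure Ω) (W : List ℕ → Ω → ℝ) (δ σ : ℝ) : Prop where
  meas : ∀ v, Measurable (W v)
  indep : iIndepFun W μ
  pos : ∀ v, v ≠ [] → ∀ᵐ z ∂μ, 0 < W v z
  int : ∀ v, v ≠ [] → Integrable (W v) μ
  mean : ∀ v, v ≠ [] → ∫ z, W v z ∂μ = 1
  int2 : ∀ v, v ≠ [] → Integrable (fun z => W v z ^ 2) μ
  absdev : ∀ v, v ≠ [] → ∫ z, |W v z - 1| ∂μ = δ
  var : ∀ v, v ≠ [] → ∫ z, (W v z - 1) ^ 2 ∂μ = σ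

theorem data_of_isRealization {ν : Measure ℝ} [IsProbabilityMeasure ν] (hpos : ν (Set.Ioi 0) = 1)
    (hmean : ∫ x, x ∂ν = 1) (hm2 : Integrable (fun x : ℝ => x ^ 2) ν)
    (hW : IsRealization ν μ W) :
    Data μ W (∫ x, |x - 1| ∂ν) (∫ x, (x - 1) ^ 2 ∂ν) := by
  obtain ⟨hm, hi, hmap⟩ := hW
  have hint : Integrable (fun x : ℝ => x) ν := by
    have h2 : MemLp (fun x : ℝ => x) 2 ν :=
      (memLp_two_iff_integrable_sq measurable_id.aestronglyMeasurable).2 hm2
    exact h2.integrable one_le_two
  refine ⟨hm, hi, ?_, ?_, ?_, ?_, ?_, ?_⟩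
  · intro v hv
    have h1 : ∀ᵐ x ∂ν, 0 < x := by
      rw [ae_iff]
      have h2 : {a : ℝ | ¬ 0 < a} = (Set.Ioi 0)ᶜ := by ext; simp
      rw [h2, prob_compl_eq_zero_iff measurableSet_Ioi]
      exact hpos
    rw [← hmap v hv] at h1
    exact ae_of_ae_map (hm v).aemeasurable h1
  · intro v hv
    rw [← hmap v hv] at hint
    exact hint.comp_measurable (hm v)
  · intro v hv
    rw [← hmean, ← hmap v hv]
    exact (integral_map (φ := W v) (f := fun x : ℝ => x) (hm v).aemeasurable
      measurable_id.aestronglyMeasurable).symm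
  · intro v hv
    rw [← hmap v hv] at hm2
    exact hm2.comp_measurable (hm v)
  · intro v hv
    rw [← hmap v hv, integral_map (hm v).aemeasurable]
    exact ((measurable_id.sub_const 1).abs).aestronglyMeasurable
  · intro v hv
    rw [← hmap v hv, integral_map (hm v).aemeasurable]
    exact ((measurable_id.sub_const 1).pow_const 2).aestronglyMeasurable

theorem absdev_pos {ν : Measure ℝ} [IsProbabilityMeasure ν] (hnc : ∀ c : ℝ, ν ≠ Measure.dirac c)
    (hm2 : Integrable (fun x : ℝ => x ^ 2) ν) : 0 < ∫ x, |x - 1| ∂ν := by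
  have hint : Integrable (fun x : ℝ => x) ν := by
    have h2 : MemLp (fun x : ℝ => x) 2 ν :=
      (memLp_two_iff_integrable_sq measurable_id.aestronglyMeasurable).2 hm2
    exact h2.integrable one_le_two
  have hint1 : Integrable (fun x : ℝ => |x - 1|) ν := (hint.sub (integrable_const 1)).abs
  rcases (integral_nonneg (μ := ν) (f := fun x : ℝ => |x - 1|) fun x => abs_nonneg _).lt_or_eq
    with h | h
  · exact h
  · exfalso
    have h0 := (integral_eq_zero_iff_of_nonneg (fun x => abs_nonneg _) hint1).1 h.symm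
    have h1 : ∀ᵐ x ∂ν, x = 1 := by
      filter_upwards [h0] with x hx
      have : |x - 1| = 0 := hx
      linarith [abs_eq_zero.1 this]
    apply hnc 1
    have h2 : ν = ν.map (fun _ : ℝ => (1 : ℝ)) := by
      conv_lhs => rw [← Measure.map_id (μ := ν)]
      exact Measure.map_congr h1
    rw [h2, Measure.map_const]
    simp

namespace Data

variable {δ σ : ℝ} (D : Data μ W δ σ)
include D

lemma pathProduct_pos [IsProbabilityMeasure μ] (v : List ℕ) : ∀ᵐ z ∂μ, 0 < pathProduct W v z := by
  induction v with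
  | nil => simp [pathProduct]
  | cons a v ih =>
    filter_upwards [ih, D.pos (a :: v) (by simp)] with z h1 h2
    exact mul_pos h1 h2

lemma indep_pathProduct (v : List ℕ) (a : ℕ) : IndepFun (pathProduct W v) (W (a :: v)) μ :=
  indep_path_new D.meas D.indep v a (measurable_pathProduct_sig v fun _ h => h)
    (measurable_W_sig rfl)

lemma integrable_pathProduct [IsProbabilityMeasure μ] (v : List ℕ) :
    Integrable (pathProduct W v) μ := by
  induction v with
  | nil => exact integrable_const _
  | cons a v ih => exact (D.indep_pathProduct v a).integrable_mul ih (D.int _ (by simp))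

lemma integral_pathProduct [IsProbabilityMeasure μ] (v : List ℕ) :
    ∫ z, pathProduct W v z ∂μ = 1 := by
  induction v with
  | nil => simp [pathProduct]
  | cons a v ih =>
    have h := (D.indep_pathProduct v a).integral_fun_mul_eq_mul_integral
      (measurable_pathProduct D.meas v).aestronglyMeasurable (D.meas _).aestronglyMeasurable
    have h2 := D.mean (a :: v) (by simp)
    simp only [pathProduct]
    rw [h, ih, h2, one_mul]

lemma integrable_sq_pathProduct [IsProbabilityMeasure μ] (v : List ℕ) :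
    Integrable (fun z => pathProduct W v z ^ 2) μ := by
  induction v with
  | nil => simp [pathProduct]
  | cons a v ih =>
    have h1 : IndepFun (fun z => pathProduct W v z ^ 2) (fun z => W (a :: v) z ^ 2) μ :=
      (D.indep_pathProduct v a).comp (measurable_id.pow_const 2) (measurable_id.pow_const 2)
    have h2 := h1.integrable_mul ih (D.int2 (a :: v) (by simp))
    refine h2.congr (Filter.Eventually.of_forall fun z => ?_)
    simp only [pathProduct, Pi.mul_apply]
    ring

omit mΩ D in
/-- The increment from `v` to its child `a :: v`. -/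
lemma incr_eq (v : List ℕ) (a : ℕ) (z : Ω) :
    pathProduct W (a :: v) z - pathProduct W v z = pathProduct W v z * (W (a :: v) z - 1) := by
  simp only [pathProduct]; ring

lemma integral_abs_incr [IsProbabilityMeasure μ] (v : List ℕ) (a : ℕ) :
    ∫ z, |pathProduct W (a :: v) z - pathProduct W v z| ∂μ = δ := by
  have h1 : IndepFun (fun z => |pathProduct W v z|) (fun z => |W (a :: v) z - 1|) μ :=
    (D.indep_pathProduct v a).comp measurable_id.abs ((measurable_id.sub_const 1).abs)
  have h2 := h1.integral_fun_mul_eq_mul_integral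
    ((measurable_pathProduct D.meas v).abs).aestronglyMeasurable
    (((D.meas _).sub_const 1).abs).aestronglyMeasurable
  have h3 : ∫ z, |pathProduct W v z| ∂μ = 1 := by
    rw [← D.integral_pathProduct v]
    refine integral_congr_ae ?_
    filter_upwards [D.pathProduct_pos v] with z hz
    exact abs_of_pos hz
  have h4 := D.absdev (a :: v) (by simp)
  rw [h3, h4, one_mul] at h2
  rw [← h2]
  congr 1
  ext z
  rw [incr_eq, abs_mul]

lemma memLp_pathProduct [IsProbabilityMeasure μ] (v : List ℕ) : MemLp (pathProduct W v) 2 μ :=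
  (memLp_two_iff_integrable_sq (measurable_pathProduct D.meas v).aestronglyMeasurable).2
    (D.integrable_sq_pathProduct v)

lemma memLp_incr [IsProbabilityMeasure μ] (v : List ℕ) (a : ℕ) :
    MemLp (fun z => pathProduct W (a :: v) z - pathProduct W v z) 2 μ :=
  (D.memLp_pathProduct (a :: v)).sub (D.memLp_pathProduct v)

lemma indep_three {v : List ℕ} {a b : ℕ} (hab : a ≠ b) :
    IndepFun (fun z => pathProduct W v z * (W (a :: v) z - 1) * pathProduct W v z)
      (fun z => W (b :: v) z - 1) μ := by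
  have hdisj : Disjoint ({u | u <:+ v} ∪ {a :: v} : Set (List ℕ)) {b :: v} := by
    rw [Set.disjoint_singleton_right]
    rintro (h | h)
    · have := List.IsSuffix.length_le h
      simp at this
    · have h' : b :: v = a :: v := h
      simp at h'
      exact hab h'.symm
  refine indepFun_of_disjoint D.meas D.indep hdisj ?_ ?_
  · have hmv : Measurable[sig W ({u | u <:+ v} ∪ {a :: v})] (pathProduct W v) :=
      measurable_pathProduct_sig v fun u hu => Or.inl hu
    have hma : Measurable[sig W ({u | u <:+ v} ∪ {a :: v})] (W (a :: v)) :=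
      measurable_W_sig (Or.inr rfl)
    exact meas_aux hmv hma
  · have hmb : Measurable[sig W {b :: v}] (W (b :: v)) := measurable_W_sig rfl
    exact meas_aux' hmb

lemma integral_incr_mul_of_ne [IsProbabilityMeasure μ] (v : List ℕ) {a b : ℕ} (hab : a ≠ b) :
    ∫ z, (pathProduct W (a :: v) z - pathProduct W v z) *
      (pathProduct W (b :: v) z - pathProduct W v z) ∂μ = 0 := by
  have hind := D.indep_three (v := v) hab
  have hm1 := measurable_pathProduct D.meas v
  have h2 := hind.integral_fun_mul_eq_mul_integral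
    ((hm1.mul ((D.meas (a :: v)).sub_const 1)).mul hm1).aestronglyMeasurable
    ((D.meas (b :: v)).sub_const 1).aestronglyMeasurable
  have h3 : ∫ z, (W (b :: v) z - 1) ∂μ = 0 := by
    rw [integral_sub (D.int _ (by simp)) (integrable_const 1), D.mean _ (by simp)]
    simp
  rw [h3, mul_zero] at h2
  rw [← h2]
  congr 1
  ext z
  rw [incr_eq, incr_eq]
  ring

lemma integral_incr_sq [IsProbabilityMeasure μ] (v : List ℕ) (a : ℕ) :
    ∫ z, (pathProduct W (a :: v) z - pathProduct W v z) *
      (pathProduct W (a :: v) z - pathProduct W v z) ∂μ =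
      (∫ z, pathProduct W v z ^ 2 ∂μ) * σ := by
  have h1 : IndepFun (fun z => pathProduct W v z ^ 2) (fun z => (W (a :: v) z - 1) ^ 2) μ :=
    (D.indep_pathProduct v a).comp (measurable_id.pow_const 2)
      ((measurable_id.sub_const 1).pow_const 2)
  have h2 := h1.integral_fun_mul_eq_mul_integral
    ((measurable_pathProduct D.meas v).pow_const 2).aestronglyMeasurable
    (((D.meas _).sub_const 1).pow_const 2).aestronglyMeasurable
  have h4 := D.var (a :: v) (by simp)
  rw [h4] at h2
  rw [← h2]
  congr 1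
  ext z
  rw [incr_eq]
  ring

lemma var_nonneg : 0 ≤ σ := by
  rw [← D.var [0] (by simp)]
  exact integral_nonneg fun z => sq_nonneg _

/-- Second moment of a combination of increments. -/
lemma integral_sum_sq [IsProbabilityMeasure μ] (v : List ℕ) (A : Finset ℕ) (ε : ℕ → ℝ)
    (hε : ∀ n, |ε n| ≤ 1) :
    ∫ z, (∑ n ∈ A, ε n * (pathProduct W (n :: v) z - pathProduct W v z)) ^ 2 ∂μ ≤
      A.card * ((∫ z, pathProduct W v z ^ 2 ∂μ) * σ) := by
  have hint : ∀ a b : ℕ, Integrable (fun z => ε a * ε b *
      ((pathProduct W (a :: v) z - pathProduct W v z) *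
      (pathProduct W (b :: v) z - pathProduct W v z))) μ := fun a b =>
    ((D.memLp_incr v a).integrable_mul (D.memLp_incr v b)).const_mul _
  have h1 : ∀ z, (∑ n ∈ A, ε n * (pathProduct W (n :: v) z - pathProduct W v z)) ^ 2 =
      ∑ a ∈ A, ∑ b ∈ A, ε a * ε b * ((pathProduct W (a :: v) z - pathProduct W v z) *
      (pathProduct W (b :: v) z - pathProduct W v z)) := by
    intro z
    rw [sq, Finset.sum_mul_sum]
    refine Finset.sum_congr rfl fun a _ => Finset.sum_congr rfl fun b _ => ?_
    ring
  simp_rw [h1]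
  rw [integral_finsetSum A (fun a _ => integrable_finsetSum A fun b _ => hint a b)]
  have h2 : ∀ a ∈ A, ∫ z, ∑ b ∈ A, ε a * ε b *
      ((pathProduct W (a :: v) z - pathProduct W v z) *
      (pathProduct W (b :: v) z - pathProduct W v z)) ∂μ ≤
      (∫ z, pathProduct W v z ^ 2 ∂μ) * σ := by
    intro a ha
    rw [integral_finsetSum A (fun b _ => hint a b), Finset.sum_eq_single_of_mem a ha]
    · rw [integral_const_mul, D.integral_incr_sq]
      have h3 : ε a * ε a ≤ 1 := by
        have := hε a
        rw [← abs_mul_abs_self]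
        nlinarith [abs_nonneg (ε a)]
      have h4 : 0 ≤ (∫ z, pathProduct W v z ^ 2 ∂μ) * σ :=
        mul_nonneg (integral_nonneg fun z => sq_nonneg _) D.var_nonneg
      nlinarith
    · intro b _ hb
      rw [integral_const_mul, D.integral_incr_mul_of_ne v hb.symm, mul_zero]
  calc _ ≤ ∑ a ∈ A, (∫ z, pathProduct W v z ^ 2 ∂μ) * σ := Finset.sum_le_sum h2
    _ = _ := by rw [Finset.sum_const, nsmul_eq_mul]

omit D in
lemma integral_abs_le_sqrt [IsProbabilityMeasure μ] {g : Ω → ℝ} (hg : MemLp g 2 μ) :
    ∫ z, |g z| ∂μ ≤ Real.sqrt (∫ z, g z ^ 2 ∂μ) := by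
  have h1 : MemLp (fun z => |g z|) 2 μ := hg.abs
  have h2 := variance_eq_sub h1
  have h3 := variance_nonneg (fun z => |g z|) μ
  rw [h2] at h3
  apply Real.le_sqrt_of_sq_le
  have h4 : ∫ z, g z ^ 2 ∂μ = μ[(fun z => |g z|) ^ 2] := by
    congr 1
    ext z
    simp
  rw [h4]
  linarith

lemma integral_abs_sum [IsProbabilityMeasure μ] (v : List ℕ) (A : Finset ℕ) (ε : ℕ → ℝ)
    (hε : ∀ n, |ε n| ≤ 1) :
    ∫ z, |∑ n ∈ A, ε n * (pathProduct W (n :: v) z - pathProduct W v z)| ∂μ ≤
      Real.sqrt ((∫ z, pathProduct W v z ^ 2 ∂μ) * σ) * Real.sqrt A.card := by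
  have h0 : MemLp (fun z => ∑ n ∈ A, ε n * (pathProduct W (n :: v) z - pathProduct W v z)) 2 μ :=
    memLp_finsetSum A fun n _ => (D.memLp_incr v n).const_mul (ε n)
  refine (integral_abs_le_sqrt h0).trans ?_
  rw [mul_comm, ← Real.sqrt_mul (Nat.cast_nonneg _)]
  exact Real.sqrt_le_sqrt (D.integral_sum_sq v A ε hε)

/-- The class in `L¹` of the path product. -/
noncomputable def cls [IsProbabilityMeasure μ] (v : List ℕ) : Lp ℝ 1 μ :=
  (D.integrable_pathProduct v).toL1 (pathProduct W v)

lemma cls_coe [IsProbabilityMeasure μ] (v : List ℕ) :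
    (D.cls v : Ω → ℝ) =ᵐ[μ] pathProduct W v :=
  Integrable.coeFn_toL1 _

lemma cls_mem [IsProbabilityMeasure μ] (v : List ℕ) : D.cls v ∈ productSpan μ W :=
  Submodule.le_topologicalClosure _ (Submodule.subset_span ⟨v, D.cls_coe v⟩)

lemma norm_cls [IsProbabilityMeasure μ] (v : List ℕ) : ‖D.cls v‖ = 1 := by
  rw [L1.norm_eq_integral_norm, ← D.integral_pathProduct v]
  refine integral_congr_ae ?_
  filter_upwards [D.cls_coe v, D.pathProduct_pos v] with z h1 h2
  rw [h1, Real.norm_eq_abs, abs_of_pos h2]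

lemma norm_cls_sub [IsProbabilityMeasure μ] (v : List ℕ) (a : ℕ) :
    ‖D.cls (a :: v) - D.cls v‖ = δ := by
  rw [L1.norm_eq_integral_norm]
  refine Eq.trans (integral_congr_ae ?_) (D.integral_abs_incr v a)
  filter_upwards [D.cls_coe v, D.cls_coe (a :: v), Lp.coeFn_sub (D.cls (a :: v)) (D.cls v)]
    with z h1 h2 h3
  rw [h3, Pi.sub_apply, h1, h2, Real.norm_eq_abs]

lemma norm_sum_cls_sub [IsProbabilityMeasure μ] (v : List ℕ) (A : Finset ℕ) (ε : ℕ → ℝ)
    (hε : ∀ n, |ε n| ≤ 1) :
    ‖∑ n ∈ A, ε n • (D.cls (n :: v) - D.cls v)‖ ≤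
      Real.sqrt ((∫ z, pathProduct W v z ^ 2 ∂μ) * σ) * Real.sqrt A.card := by
  refine le_trans (le_of_eq ?_) (D.integral_abs_sum v A ε hε)
  rw [L1.norm_eq_integral_norm]
  refine integral_congr_ae ?_
  have h1 : ∀ᵐ z ∂μ, ∀ n : ℕ, ((ε n • (D.cls (n :: v) - D.cls v) : Lp ℝ 1 μ) : Ω → ℝ) z =
      ε n * (pathProduct W (n :: v) z - pathProduct W v z) := by
    rw [ae_all_iff]
    intro n
    filter_upwards [Lp.coeFn_smul (ε n) (D.cls (n :: v) - D.cls v), D.cls_coe v,
      D.cls_coe (n :: v), Lp.coeFn_sub (D.cls (n :: v)) (D.cls v)] with z h1 h2 h3 h4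
    rw [h1, Pi.smul_apply, h4, Pi.sub_apply, h2, h3, smul_eq_mul]
  filter_upwards [h1, Lp.coeFn_finsetSum A fun n => ε n • (D.cls (n :: v) - D.cls v)] with z h2 h3
  rw [h3, Real.norm_eq_abs]
  congr 1
  rw [Finset.sum_apply]
  exact Finset.sum_congr rfl fun n _ => h2 n

end Data

end Crest.Agent.R125.TreeProd
private theorem rz_67e223a4f3 : type_of% @_root_.Crest.AnalysisR.TreeProduct.pathProduct.eq_def := @_root_.Crest.AnalysisR.TreeProduct.pathProduct.eq_def
private theorem rz_1fac7d8233 : type_of% @_root_.Crest.AnalysisR.TreeProduct.pathProduct.eq_1 := @_root_.Crest.AnalysisR.TreeProduct.pathProduct.eq_1
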